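import Vale.Agent.Lib.P110T.Pur.Defs
import Vale.Agent.Lib.P110U.S3
import Vale.Agent.Lib.P110U.S3b

/-! P110T local purity in shift form: module A, the shifted correlation as a trigonometric polynomial. -/

namespace Vale.Agent.P110U

open MeasureTheory Filter Topology
open scoped ComplexConjugate ENNReal
open Vale.Agent.P110F

private lemma PurA_zero_left {ρ u : ℝ} (hρ : 0 < ρ) (hu : u ≤ 0) : tp ρ u = 0 := by
  unfold tp
  refine max_eq_left ?_
  refine (min_le_right _ _).trans ((min_le_left _ _).trans ?_)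
  exact div_nonpos_of_nonpos_of_nonneg hu hρ.le

private lemma PurA_zero_right {ρ u : ℝ} (hρ : 0 < ρ) (hu : 1 ≤ u) : tp ρ u = 0 := by
  unfold tp
  refine max_eq_left ?_
  refine (min_le_right _ _).trans ((min_le_right _ _).trans ?_)
  exact div_nonpos_of_nonpos_of_nonneg (by linarith) hρ.le

private lemma PurA_box {n : ℕ} (ρ : ℝ) {L : ℕ} (H : Matrix (Fin n) (Fin n) ℝ)
    (b : Fin n → ℝ) (θ : Fin n → ℝ) :
    TT ρ H b L θ = ∑ v ∈ Fintype.piFinset (fun _ : Fin n => Finset.Ico (0 : ℤ) L),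
      ((∏ i, tp ρ (((v i : ℤ) : ℝ) / L) : ℝ) : ℂ) *
      e1 (quad H (fun i => ((v i : ℤ) : ℝ)) / (2 * L) +
        ∑ i, (b i + θ i) * ((v i : ℤ) : ℝ)) := by
  unfold TT
  refine Finset.sum_bij (fun y _ i => (((y i : Fin L) : ℕ) : ℤ)) ?_ ?_ ?_ ?_
  · intro y _
    rw [Fintype.mem_piFinset]
    intro i
    rw [Finset.mem_Ico]
    have := (y i).2
    constructor <;> omega
  · intro a _ a' _ h
    funext i
    have := congrFun h i
    exact Fin.ext (by exact_mod_cast this)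
  · intro v hv
    rw [Fintype.mem_piFinset] at hv
    have hv' : ∀ i, 0 ≤ v i ∧ v i < L := fun i => by
      have := hv i
      rwa [Finset.mem_Ico] at this
    refine ⟨fun i => ⟨(v i).toNat, by have := hv' i; omega⟩, Finset.mem_univ _, ?_⟩
    funext i
    have := (hv' i).1
    simp only
    omega
  · intro y _
    simp only [Int.cast_natCast]

/-- intermediate coefficient -/
private noncomputable def cY {n : ℕ} (ρ : ℝ) (H : Matrix (Fin n) (Fin n) ℝ) (b : Fin n → ℝ)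
    (L : ℕ) (s : Fin n → ℝ) (d : Fin n → ℤ) : ℂ :=
  ∑ y ∈ Fintype.piFinset (fun _ : Fin n => Finset.Ico (0 : ℤ) L),
    ((∏ i, (tp ρ ((y i : ℝ) / L) * tp ρ (((y i + d i : ℤ) : ℝ) / L)) : ℝ) : ℂ) *
    e1 ((quad H (fun i => ((y i + d i : ℤ) : ℝ)) -
      quad H (fun i => ((y i : ℤ) : ℝ))) / (2 * L) + ∑ i, b i * (d i : ℝ) +
      ∑ i, s i / L * ((y i + d i : ℤ) : ℝ))

private theorem cross_cY {n : ℕ} {ρ : ℝ} (hρ : 0 < ρ) {L : ℕ} (hL : 0 < L)
    (H : Matrix (Fin n) (Fin n) ℝ) (b : Fin n → ℝ) (θ s : Fin n → ℝ) :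
    TT ρ H b L (fun i => θ i + s i / L) * conj (TT ρ H b L θ) =
      ∑ d ∈ dbox n L, cY ρ H b L s d * e1 (∑ i, (d i : ℝ) * θ i) := by
  have hLr : (0 : ℝ) < L := by exact_mod_cast hL
  rw [PurA_box, PurA_box, map_sum, Finset.sum_mul_sum, ← Finset.sum_product']
  unfold cY
  simp_rw [Finset.sum_mul]
  rw [Finset.sum_sigma']
  refine Finset.sum_of_injOn (fun p => (⟨p.1 - p.2, p.2⟩ : (_ : Fin n → ℤ) × (Fin n → ℤ)))
    ?_ ?_ ?_ ?_
  · rintro ⟨v, w⟩ _ ⟨v', w'⟩ _ h
    simp only [Sigma.mk.injEq, heq_eq_eq] at h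
    obtain ⟨h1, h3⟩ := h
    subst h3
    rw [sub_left_inj] at h1
    rw [h1]
  · rintro ⟨v, w⟩ hp
    rw [Finset.mem_coe, Finset.mem_product, Fintype.mem_piFinset, Fintype.mem_piFinset] at hp
    have hv : ∀ i, 0 ≤ v i ∧ v i < L := fun i => by
      have := hp.1 i
      rwa [Finset.mem_Ico] at this
    have hw : ∀ i, 0 ≤ w i ∧ w i < L := fun i => by
      have := hp.2 i
      rwa [Finset.mem_Ico] at this
    rw [Finset.mem_coe, Finset.mem_sigma]
    unfold dbox
    rw [Fintype.mem_piFinset, Fintype.mem_piFinset]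
    constructor
    · intro i
      have h1 := hv i
      have h3 := hw i
      simp only [Finset.mem_Ioo, Pi.sub_apply]
      omega
    · intro i
      have h3 := hw i
      simp only [Finset.mem_Ico]
      omega
  · rintro ⟨d, y⟩ hq hn
    rw [Finset.mem_sigma] at hq
    unfold dbox at hq
    rw [Fintype.mem_piFinset, Fintype.mem_piFinset] at hq
    have hex : ∃ i, y i + d i < 0 ∨ (L : ℤ) ≤ y i + d i := by
      by_contra hcon
      push Not at hcon
      apply hn
      refine ⟨(y + d, y), ?_, ?_⟩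
      · rw [Finset.mem_coe, Finset.mem_product, Fintype.mem_piFinset, Fintype.mem_piFinset]
        refine ⟨fun i => ?_, hq.2⟩
        have := hcon i
        simp only [Finset.mem_Ico, Pi.add_apply]
        omega
      · simp
    obtain ⟨i, hi⟩ := hex
    have hz : tp ρ (((y i + d i : ℤ) : ℝ) / L) = 0 := by
      rcases hi with hi | hi
      · refine PurA_zero_left hρ (div_nonpos_of_nonpos_of_nonneg ?_ hLr.le)
        exact_mod_cast hi.le
      · refine PurA_zero_right hρ ?_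
        rw [le_div_iff₀ hLr, one_mul]
        exact_mod_cast hi
    have hprod : (∏ i, (tp ρ ((y i : ℝ) / L) * tp ρ (((y i + d i : ℤ) : ℝ) / L)) : ℝ) = 0 := by
      refine Finset.prod_eq_zero (Finset.mem_univ i) ?_
      rw [hz, mul_zero]
    simp only [hprod]
    simp
  · rintro ⟨v, w⟩ _
    simp only
    rw [map_mul, Complex.conj_ofReal, ← e1_neg]
    have hA : (fun i => ((w i + (v - w) i : ℤ) : ℝ)) = fun i => ((v i : ℤ) : ℝ) := by
      funext i
      simp only [Pi.sub_apply]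
      push_cast
      ring
    have hA' : ∀ i, ((w i + (v - w) i : ℤ) : ℝ) = ((v i : ℤ) : ℝ) := fun i => congrFun hA i
    rw [hA]
    simp_rw [hA']
    rw [Finset.prod_mul_distrib]
    have hB : ∑ i, (b i + (θ i + s i / L)) * ((v i : ℤ) : ℝ) -
        ∑ i, (b i + θ i) * ((w i : ℤ) : ℝ) =
        ∑ i, b i * (((v - w) i : ℤ) : ℝ) + ∑ i, s i / L * ((v i : ℤ) : ℝ) +
          ∑ i, (((v - w) i : ℤ) : ℝ) * θ i := by
      rw [← Finset.sum_sub_distrib, ← Finset.sum_add_distrib, ← Finset.sum_add_distrib]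
      refine Finset.sum_congr rfl fun i _ => ?_
      simp only [Pi.sub_apply]
      push_cast
      ring
    have hC : e1 (quad H (fun i => ((v i : ℤ) : ℝ)) / (2 * L) +
          ∑ i, (b i + (θ i + s i / L)) * ((v i : ℤ) : ℝ)) *
        e1 (-(quad H (fun i => ((w i : ℤ) : ℝ)) / (2 * L) +
          ∑ i, (b i + θ i) * ((w i : ℤ) : ℝ))) =
        e1 ((quad H (fun i => ((v i : ℤ) : ℝ)) - quad H (fun i => ((w i : ℤ) : ℝ))) / (2 * L) +
          ∑ i, b i * (((v - w) i : ℤ) : ℝ) + ∑ i, s i / L * ((v i : ℤ) : ℝ)) *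
          e1 (∑ i, (((v - w) i : ℤ) : ℝ) * θ i) := by
      rw [← e1_add, ← e1_add]
      congr 1
      linear_combination hB
    push_cast at hC ⊢
    linear_combination ((∏ i, (tp ρ (((v i : ℤ) : ℝ) / L) : ℂ)) *
      ∏ i, (tp ρ (((w i : ℤ) : ℝ) / L) : ℂ)) * hC

private theorem PurA_e1_sum {ι : Type} (s : Finset ι) (f : ι → ℝ) :
    e1 (∑ i ∈ s, f i) = ∏ i ∈ s, e1 (f i) := by
  classical
  induction s using Finset.induction_on with
  | empty => simp [e1_zero]
  | insert a s ha ih => rw [Finset.sum_insert ha, Finset.prod_insert ha, e1_add, ih]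

private theorem PurA_quad {n : ℕ} (H : Matrix (Fin n) (Fin n) ℝ) (hH : H.IsSymm)
    (y d : Fin n → ℝ) :
    quad H (fun i => y i + d i) - quad H y = quad H d + 2 * ∑ i, y i * ∑ j, H i j * d j := by
  unfold quad
  have h1 : ∑ i, ∑ j, (y i + d i) * H i j * (y j + d j)
      = (∑ i, ∑ j, y i * H i j * y j) + (∑ i, ∑ j, d i * H i j * d j)
        + (∑ i, ∑ j, y i * H i j * d j) + (∑ i, ∑ j, d i * H i j * y j) := by
    simp only [← Finset.sum_add_distrib]
    refine Finset.sum_congr rfl fun i _ => Finset.sum_congr rfl fun j _ => ?_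
    ring
  have h2 : ∑ i, ∑ j, d i * H i j * y j = ∑ i, ∑ j, y i * H i j * d j := by
    rw [Finset.sum_comm]
    refine Finset.sum_congr rfl fun i _ => Finset.sum_congr rfl fun j _ => ?_
    rw [← hH.apply i j]
    ring
  have h3 : ∑ i, y i * ∑ j, H i j * d j = ∑ i, ∑ j, y i * H i j * d j := by
    refine Finset.sum_congr rfl fun i _ => ?_
    rw [Finset.mul_sum]
    refine Finset.sum_congr rfl fun j _ => ?_
    ring
  rw [h1, h2, h3]
  ring

private theorem cY_eq {n : ℕ} (ρ : ℝ) (H : Matrix (Fin n) (Fin n) ℝ) (hH : H.IsSymm)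
    (b : Fin n → ℝ) {L : ℕ} (hL : 0 < L) (s : Fin n → ℝ) (d : Fin n → ℤ) :
    cY ρ H b L s d = cX ρ H b L s d := by
  have hL' : (L : ℝ) ≠ 0 := by positivity
  unfold cX W1 cY
  rw [Finset.prod_univ_sum, Finset.mul_sum]
  refine Finset.sum_congr rfl fun y _ => ?_
  rw [Complex.ofReal_prod, Finset.prod_mul_distrib, ← PurA_e1_sum, mul_left_comm, ← e1_add]
  congr 2
  have h := PurA_quad H hH (fun i => (y i : ℝ)) (fun i => (d i : ℝ))
  have h' : quad H (fun i => ((y i + d i : ℤ) : ℝ)) = quad H (fun i => (y i : ℝ) + (d i : ℝ)) := by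
    congr 1
    funext i
    push_cast
    rfl
  rw [h', h]
  have h3 : ∑ i, ((∑ j, H i j * (d j : ℝ)) + s i) * ((y i : ℝ) / L)
      = (∑ i, (y i : ℝ) * ∑ j, H i j * (d j : ℝ)) / L + ∑ i, s i / L * (y i : ℝ) := by
    rw [Finset.sum_div, ← Finset.sum_add_distrib]
    refine Finset.sum_congr rfl fun i _ => ?_
    ring
  have h4 : ∑ i, s i / L * ((y i + d i : ℤ) : ℝ) =
      ∑ i, s i / L * (y i : ℝ) + ∑ i, s i / L * (d i : ℝ) := by
    rw [← Finset.sum_add_distrib]
    refine Finset.sum_congr rfl fun i _ => ?_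
    push_cast
    ring
  have h5 : ∑ i, (b i + s i / L) * (d i : ℝ) =
      ∑ i, b i * (d i : ℝ) + ∑ i, s i / L * (d i : ℝ) := by
    rw [← Finset.sum_add_distrib]
    refine Finset.sum_congr rfl fun i _ => ?_
    ring
  rw [h3, h4, h5]
  generalize (∑ i, (y i : ℝ) * ∑ j, H i j * (d j : ℝ)) = A
  generalize (∑ i, s i / L * (y i : ℝ)) = B
  generalize (∑ i, s i / L * (d i : ℝ)) = C
  field_simp
  ring

theorem cross_TT {n : ℕ} {ρ : ℝ} (hρ : 0 < ρ) {L : ℕ} (hL : 0 < L)
    (H : Matrix (Fin n) (Fin n) ℝ) (hH : H.IsSymm) (b : Fin n → ℝ) (θ s : Fin n → ℝ) :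
    TT ρ H b L (fun i => θ i + s i / L) * conj (TT ρ H b L θ) =
      ∑ d ∈ dbox n L, cX ρ H b L s d * e1 (∑ i, (d i : ℝ) * θ i) := by
  rw [cross_cY hρ hL]
  exact Finset.sum_congr rfl fun d _ => by rw [cY_eq ρ H hH b hL s d]

end Vale.Agent.P110U
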