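import Vale.Agent.Lib.P110T.Pur.Defs
import Vale.Agent.Lib.P110U.S1
import Vale.Agent.Lib.P110U.S5

/-! P110T local purity in shift form: module B, domination. -/

namespace Vale.Agent.P110U

open MeasureTheory Filter Topology
open scoped ComplexConjugate ENNReal
open Vale.Agent.P110F

private theorem PurB_weight {ρ : ℝ} (hρ : 0 < ρ) {K : ℝ} (hK : 0 ≤ K) {s : ℝ}
    (hs : |s| ≤ K) (x : ℝ) :
    (1 / ρ ^ 2) / max 1 ((x + s) ^ 2) ≤ (2 + 2 * K ^ 2) * ((1 / ρ ^ 2) / max 1 (x ^ 2)) := by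
  have h1 : (0 : ℝ) < max 1 ((x + s) ^ 2) := lt_max_of_lt_left one_pos
  have h2 : (0 : ℝ) < max 1 (x ^ 2) := lt_max_of_lt_left one_pos
  have hs2 : s ^ 2 ≤ K ^ 2 := by
    rw [← sq_abs s]
    exact pow_le_pow_left₀ (abs_nonneg _) hs 2
  have h3 : max 1 (x ^ 2) ≤ (2 + 2 * K ^ 2) * max 1 ((x + s) ^ 2) := by
    have ha : (1 : ℝ) ≤ max 1 ((x + s) ^ 2) := le_max_left _ _
    have hb : (x + s) ^ 2 ≤ max 1 ((x + s) ^ 2) := le_max_right _ _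
    have hK2 : 0 ≤ K ^ 2 := sq_nonneg K
    apply max_le
    · nlinarith
    · have hc : x ^ 2 ≤ 2 * (x + s) ^ 2 + 2 * s ^ 2 := by nlinarith [sq_nonneg (x + 2 * s)]
      nlinarith [mul_le_mul_of_nonneg_left ha hK2]
  have h4 : (0 : ℝ) < 1 / ρ ^ 2 := by positivity
  rw [mul_div_assoc', div_le_div_iff₀ h1 h2]
  calc 1 / ρ ^ 2 * max 1 (x ^ 2) ≤ 1 / ρ ^ 2 * ((2 + 2 * K ^ 2) * max 1 ((x + s) ^ 2)) :=
        mul_le_mul_of_nonneg_left h3 h4.le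
    _ = (2 + 2 * K ^ 2) * (1 / ρ ^ 2) * max 1 ((x + s) ^ 2) := by ring

private theorem PurB_norm_e1 (x : ℝ) : ‖e1 x‖ = 1 := by
  unfold e1
  have h : (2 * Real.pi * Complex.I * x : ℂ) = ((2 * Real.pi * x : ℝ) : ℂ) * Complex.I := by
    push_cast
    ring
  rw [h, Complex.norm_exp_ofReal_mul_I]

theorem norm_cX_le {n : ℕ} {ρ : ℝ} (hρ : 0 < ρ) (hρ2 : ρ ≤ 1 / 2) (H : Matrix (Fin n) (Fin n) ℝ)
    (hrow : ∀ i, ∑ j, |H i j| ≤ 1 / 4) (b : Fin n → ℝ) {L : ℕ} (hL : 0 < L) {K : ℝ}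
    (hK : 0 ≤ K) (hKL : 4 * K ≤ L) (s : Fin n → ℝ) (hs : ∀ i, |s i| ≤ K)
    (d : Fin n → ℤ) (hd : d ∈ dbox n L) :
    ‖cX ρ H b L s d‖ ≤ (L : ℝ) ^ n * ((2 + 2 * K ^ 2) ^ n * wT ρ H d) := by
  have hdj : ∀ j, |(d j : ℝ)| ≤ L := by
    intro j
    have h1 := Finset.mem_Ioo.1 (Fintype.mem_piFinset.1 hd j)
    have h2 : -(L : ℝ) < d j := by exact_mod_cast h1.1
    have h3 : (d j : ℝ) < L := by exact_mod_cast h1.2
    exact abs_le.2 ⟨h2.le, h3.le⟩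
  have hL0 : (0 : ℝ) < L := by exact_mod_cast hL
  have ht : ∀ i, |∑ j, H i j * (d j : ℝ) + s i| ≤ (L : ℝ) / 2 := by
    intro i
    have h1 : |∑ j, H i j * (d j : ℝ)| ≤ (L : ℝ) / 4 :=
      calc |∑ j, H i j * (d j : ℝ)| ≤ ∑ j, |H i j * (d j : ℝ)| := Finset.abs_sum_le_sum_abs _ _
        _ ≤ ∑ j, |H i j| * L := by
            refine Finset.sum_le_sum fun j _ => ?_
            rw [abs_mul]
            exact mul_le_mul_of_nonneg_left (hdj j) (abs_nonneg _)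
        _ = (∑ j, |H i j|) * L := by rw [Finset.sum_mul]
        _ ≤ 1 / 4 * L := mul_le_mul_of_nonneg_right (hrow i) hL0.le
        _ = (L : ℝ) / 4 := by ring
    have h2 := abs_add_le (∑ j, H i j * (d j : ℝ)) (s i)
    have h3 := hs i
    linarith
  unfold cX
  rw [norm_mul, PurB_norm_e1, one_mul, norm_prod]
  unfold wT
  calc ∏ i, ‖W1 ρ L (d i) (∑ j, H i j * (d j : ℝ) + s i)‖
      ≤ ∏ i : Fin n, ((L : ℝ) * ((2 + 2 * K ^ 2) *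
          ((1 / ρ ^ 2) / max 1 ((∑ j, H i j * (d j : ℝ)) ^ 2)))) :=
        Finset.prod_le_prod (fun i _ => norm_nonneg _)
          fun i _ => (norm_W1_le hρ hρ2 hL (d i) (ht i)).trans
            (mul_le_mul_of_nonneg_left (PurB_weight hρ hK (hs i) _) hL0.le)
    _ = (L : ℝ) ^ n * ((2 + 2 * K ^ 2) ^ n *
          ∏ i, (1 / ρ ^ 2) / max 1 ((∑ j, H i j * (d j : ℝ)) ^ 2)) := by
        rw [Finset.prod_mul_distrib, Finset.prod_const, Finset.prod_mul_distrib,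
          Finset.prod_const, Finset.card_univ, Fintype.card_fin]

theorem norm_gX_le {n : ℕ} {ρ : ℝ} (hρ : 0 < ρ) (hρ2 : ρ ≤ 1 / 2) (H : Matrix (Fin n) (Fin n) ℝ)
    (b : Fin n → ℝ) {K : ℝ} (hK : 0 ≤ K) (s : Fin n → ℝ) (hs : ∀ i, |s i| ≤ K)
    (d : Fin n → ℤ) : ‖gX ρ H b s d‖ ≤ (2 + 2 * K ^ 2) ^ n * wT ρ H d := by
  unfold gX wT
  rw [norm_mul, PurB_norm_e1, one_mul, norm_prod]
  calc ∏ i, ‖sT ρ (∑ j, H i j * (d j : ℝ) + s i)‖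
      ≤ ∏ i : Fin n, ((2 + 2 * K ^ 2) *
          ((1 / ρ ^ 2) / max 1 ((∑ j, H i j * (d j : ℝ)) ^ 2))) :=
        Finset.prod_le_prod (fun i _ => norm_nonneg _)
          fun i _ => (norm_sT_le hρ hρ2 _).trans (PurB_weight hρ hK (hs i) _)
    _ = (2 + 2 * K ^ 2) ^ n *
          ∏ i, (1 / ρ ^ 2) / max 1 ((∑ j, H i j * (d j : ℝ)) ^ 2) := by
        rw [Finset.prod_mul_distrib, Finset.prod_const, Finset.card_univ, Fintype.card_fin]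

end Vale.Agent.P110U
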