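import Vale.Agent.Lib.P110T.Pur.Defs
import Vale.Agent.Lib.P110U.S2
import Vale.Agent.Lib.P110U.S5

/-! P110T local purity in shift form: module C, convergence of one coefficient, uniformly in the shift. -/

namespace Vale.Agent.P110U

open MeasureTheory Filter Topology
open scoped ComplexConjugate ENNReal
open Vale.Agent.P110F

private lemma PurC_e1_lip (a b : ℝ) : ‖e1 a - e1 b‖ ≤ 2 * Real.pi * |a - b| := by
  have h1 : e1 a - e1 b = e1 b * (e1 (a - b) - 1) := by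
    rw [mul_sub, ← e1_add, mul_one]
    congr 2
    ring
  have h2 : e1 (a - b) = Complex.exp (Complex.I * ((2 * Real.pi * (a - b) : ℝ) : ℂ)) := by
    unfold e1
    congr 1
    push_cast
    ring
  rw [h1, norm_mul, norm_e1, one_mul, h2]
  refine (Real.norm_exp_I_mul_ofReal_sub_one_le).trans ?_
  rw [Real.norm_eq_abs, abs_mul, abs_of_pos Real.two_pi_pos]

private lemma PurC_tp_nonneg (ρ u : ℝ) : 0 ≤ tp ρ u := le_max_left _ _

private lemma PurC_tp_le (ρ u : ℝ) : tp ρ u ≤ 1 := max_le zero_le_one (min_le_left _ _)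

private lemma PurC_lip {ρ : ℝ} (hρ : 0 < ρ) (t u v : ℝ) :
    ‖((tp ρ u ^ 2 : ℝ) : ℂ) * e1 (t * u) - ((tp ρ v ^ 2 : ℝ) : ℂ) * e1 (t * v)‖ ≤
      (2 / ρ + 2 * Real.pi * |t|) * |u - v| := by
  have h0 : ((tp ρ u ^ 2 : ℝ) : ℂ) * e1 (t * u) - ((tp ρ v ^ 2 : ℝ) : ℂ) * e1 (t * v) =
      ((tp ρ u ^ 2 - tp ρ v ^ 2 : ℝ) : ℂ) * e1 (t * u) +
        ((tp ρ v ^ 2 : ℝ) : ℂ) * (e1 (t * u) - e1 (t * v)) := by
    push_cast
    ring
  have h1 : |tp ρ u ^ 2 - tp ρ v ^ 2| ≤ 2 / ρ * |u - v| := by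
    have e : tp ρ u ^ 2 - tp ρ v ^ 2 = (tp ρ u - tp ρ v) * (tp ρ u + tp ρ v) := by ring
    have e2 : |tp ρ u + tp ρ v| ≤ 2 := by
      rw [abs_of_nonneg (add_nonneg (PurC_tp_nonneg _ _) (PurC_tp_nonneg _ _))]
      linarith [PurC_tp_le ρ u, PurC_tp_le ρ v]
    rw [e, abs_mul]
    calc |tp ρ u - tp ρ v| * |tp ρ u + tp ρ v| ≤ (|u - v| / ρ) * 2 :=
          mul_le_mul (tp_lipschitz hρ u v) e2 (abs_nonneg _) (by positivity)
      _ = 2 / ρ * |u - v| := by ring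
  have h2 : |tp ρ v ^ 2| ≤ 1 := by
    rw [abs_of_nonneg (sq_nonneg _)]
    exact pow_le_one₀ (PurC_tp_nonneg _ _) (PurC_tp_le _ _)
  have h3 : ‖e1 (t * u) - e1 (t * v)‖ ≤ 2 * Real.pi * (|t| * |u - v|) := by
    refine (PurC_e1_lip _ _).trans_eq ?_
    rw [← mul_sub, abs_mul]
  rw [h0]
  refine (norm_add_le _ _).trans ?_
  rw [norm_mul, norm_mul, norm_e1, mul_one, Complex.norm_real, Complex.norm_real,
    Real.norm_eq_abs, Real.norm_eq_abs]
  calc |tp ρ u ^ 2 - tp ρ v ^ 2| + |tp ρ v ^ 2| * ‖e1 (t * u) - e1 (t * v)‖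
      ≤ 2 / ρ * |u - v| + 1 * (2 * Real.pi * (|t| * |u - v|)) :=
        add_le_add h1 (mul_le_mul h2 h3 (norm_nonneg _) zero_le_one)
    _ = (2 / ρ + 2 * Real.pi * |t|) * |u - v| := by ring

private lemma PurC_cont {ρ : ℝ} (t : ℝ) :
    Continuous fun u : ℝ => ((tp ρ u ^ 2 : ℝ) : ℂ) * e1 (t * u) := by
  have h1 : Continuous fun u : ℝ => tp ρ u := by
    unfold tp
    fun_prop
  have h2 : Continuous fun u : ℝ => e1 (t * u) := continuous_e1.comp (continuous_const.mul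
    continuous_id)
  exact (Complex.continuous_ofReal.comp (h1.pow 2)).mul h2

private lemma PurC_full {ρ : ℝ} (hρ : 0 < ρ) (t : ℝ) (L : ℕ) (hL : 0 < L) :
    ‖(∑ y ∈ Finset.range L, ((tp ρ ((y : ℝ) / L) ^ 2 : ℝ) : ℂ) * e1 (t * ((y : ℝ) / L))) / (L : ℂ) -
      sT ρ t‖ ≤ (2 / ρ + 2 * Real.pi * |t|) / L := by
  have hcont := PurC_cont (ρ := ρ) t
  have hL0 : (0 : ℝ) < L := by exact_mod_cast hL
  set F : ℝ → ℂ := fun u : ℝ => ((tp ρ u ^ 2 : ℝ) : ℂ) * e1 (t * u) with hF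
  have h1 : sT ρ t = ∑ y ∈ Finset.range L, ∫ u in ((y : ℝ) / L)..(((y + 1 : ℕ) : ℝ) / L),
      F u := by
    have h2 := intervalIntegral.sum_integral_adjacent_intervals (μ := volume)
      (f := F) (a := fun y : ℕ => (y : ℝ) / L) (n := L)
      (fun k _ => hcont.intervalIntegrable _ _)
    rw [h2]
    unfold sT
    simp only [Nat.cast_zero, zero_div]
    rw [div_self hL0.ne']
  have h3 : (∑ y ∈ Finset.range L, ((tp ρ ((y : ℝ) / L) ^ 2 : ℝ) : ℂ) *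
      e1 (t * ((y : ℝ) / L))) / (L : ℂ) =
      ∑ y ∈ Finset.range L, ∫ _u in ((y : ℝ) / L)..(((y + 1 : ℕ) : ℝ) / L),
        F ((y : ℝ) / L) := by
    rw [Finset.sum_div]
    refine Finset.sum_congr rfl fun y _ => ?_
    rw [intervalIntegral.integral_const]
    have h4 : ((y + 1 : ℕ) : ℝ) / L - (y : ℝ) / L = 1 / L := by
      push_cast
      field_simp
      ring
    rw [h4, Complex.real_smul, hF]
    push_cast
    ring
  rw [h3, h1, ← Finset.sum_sub_distrib]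
  refine (norm_sum_le _ _).trans ?_
  have h5 : ∀ y ∈ Finset.range L,
      ‖(∫ _u in ((y : ℝ) / L)..(((y + 1 : ℕ) : ℝ) / L), F ((y : ℝ) / L)) -
        ∫ u in ((y : ℝ) / L)..(((y + 1 : ℕ) : ℝ) / L), F u‖ ≤
      (2 / ρ + 2 * Real.pi * |t|) / L * (1 / L) := by
    intro y _
    rw [← intervalIntegral.integral_sub (intervalIntegrable_const) (hcont.intervalIntegrable _ _)]
    have h4 : ((y + 1 : ℕ) : ℝ) / L - (y : ℝ) / L = 1 / L := by
      push_cast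
      field_simp
      ring
    have hle : (y : ℝ) / L ≤ ((y + 1 : ℕ) : ℝ) / L := by
      have : (0 : ℝ) < 1 / L := by positivity
      linarith
    have h6 := intervalIntegral.norm_integral_le_of_norm_le_const (a := (y : ℝ) / L)
      (b := ((y + 1 : ℕ) : ℝ) / L) (C := (2 / ρ + 2 * Real.pi * |t|) / L)
      (f := fun u => F ((y : ℝ) / L) - F u) (by
        intro u hu
        rw [Set.uIoc_of_le hle] at hu
        refine (PurC_lip hρ t _ _).trans ?_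
        have h7 : |(y : ℝ) / L - u| ≤ 1 / L := by
          rw [abs_sub_comm, abs_of_nonneg (by linarith [hu.1])]
          linarith [hu.2]
        have h9 : 0 ≤ 2 / ρ + 2 * Real.pi * |t| := by positivity
        calc (2 / ρ + 2 * Real.pi * |t|) * |(y : ℝ) / L - u| ≤
              (2 / ρ + 2 * Real.pi * |t|) * (1 / L) := mul_le_mul_of_nonneg_left h7 h9
          _ = (2 / ρ + 2 * Real.pi * |t|) / L := by ring)
    refine h6.trans_eq ?_
    have h8 : (0 : ℝ) < 1 / L := by positivity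
    rw [h4, abs_of_pos h8]
  refine (Finset.sum_le_sum h5).trans_eq ?_
  rw [Finset.sum_const, Finset.card_range, nsmul_eq_mul]
  field_simp

private lemma PurC_diff {ρ : ℝ} (hρ : 0 < ρ) (d : ℤ) (t : ℝ) (L : ℕ) (hL : 0 < L) :
    ‖W1 ρ L d t -
      ∑ y ∈ Finset.range L, ((tp ρ ((y : ℝ) / L) ^ 2 : ℝ) : ℂ) * e1 (t * ((y : ℝ) / L))‖ ≤
      |(d : ℝ)| / ρ := by
  have hL0 : (0 : ℝ) < L := by exact_mod_cast hL
  have h1 : ∑ y ∈ Finset.range L, ((tp ρ ((y : ℝ) / L) ^ 2 : ℝ) : ℂ) * e1 (t * ((y : ℝ) / L)) =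
      ∑ y ∈ Finset.Ico (0 : ℤ) L, ((tp ρ ((y : ℝ) / L) ^ 2 : ℝ) : ℂ) *
        e1 (t * ((y : ℝ) / L)) := by
    refine Finset.sum_bij (fun (y : ℕ) _ => (y : ℤ)) (fun y hy => ?_) (fun a _ b _ h => ?_)
      (fun z hz => ?_) (fun y _ => ?_)
    · rw [Finset.mem_Ico]
      rw [Finset.mem_range] at hy
      omega
    · exact_mod_cast h
    · rw [Finset.mem_Ico] at hz
      refine ⟨z.toNat, ?_, ?_⟩
      · rw [Finset.mem_range]
        omega
      · omega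
    · rw [Int.cast_natCast]
  unfold W1
  rw [h1, ← Finset.sum_sub_distrib]
  refine (norm_sum_le _ _).trans ?_
  have h2 : ∀ y ∈ Finset.Ico (0 : ℤ) L,
      ‖((tp ρ ((y : ℝ) / L) * tp ρ (((y + d : ℤ) : ℝ) / L) : ℝ) : ℂ) * e1 (t * ((y : ℝ) / L)) -
        ((tp ρ ((y : ℝ) / L) ^ 2 : ℝ) : ℂ) * e1 (t * ((y : ℝ) / L))‖ ≤
        |(d : ℝ)| / L / ρ := by
    intro y _
    rw [← sub_mul, norm_mul, norm_e1, mul_one, ← Complex.ofReal_sub, Complex.norm_real,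
      Real.norm_eq_abs]
    have e : tp ρ ((y : ℝ) / L) * tp ρ (((y + d : ℤ) : ℝ) / L) - tp ρ ((y : ℝ) / L) ^ 2 =
        tp ρ ((y : ℝ) / L) * (tp ρ (((y + d : ℤ) : ℝ) / L) - tp ρ ((y : ℝ) / L)) := by ring
    rw [e, abs_mul, abs_of_nonneg (PurC_tp_nonneg _ _)]
    have h3 := tp_lipschitz hρ (((y + d : ℤ) : ℝ) / L) ((y : ℝ) / L)
    have h4 : ((y + d : ℤ) : ℝ) / L - (y : ℝ) / L = (d : ℝ) / L := by
      push_cast
      ring
    rw [h4, abs_div, abs_of_pos hL0] at h3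
    calc tp ρ ((y : ℝ) / L) * |tp ρ (((y + d : ℤ) : ℝ) / L) - tp ρ ((y : ℝ) / L)|
        ≤ 1 * (|(d : ℝ)| / L / ρ) :=
          mul_le_mul (PurC_tp_le _ _) h3 (abs_nonneg _) zero_le_one
      _ = _ := one_mul _
  refine (Finset.sum_le_sum h2).trans_eq ?_
  rw [Finset.sum_const, Int.card_Ico, nsmul_eq_mul]
  simp only [sub_zero, Int.toNat_natCast]
  field_simp

/-- the bound inside the proof of `tendsto_W1` (copy the private lemmas of `P110U/S2`) -/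
theorem W1_rate {ρ : ℝ} (hρ : 0 < ρ) (hρ2 : ρ ≤ 1 / 2) (d : ℤ) (t : ℝ) {L : ℕ} (hL : 0 < L) :
    ‖W1 ρ L d t / (L : ℂ) - sT ρ t‖ ≤ (|(d : ℝ)| / ρ + (2 / ρ + 2 * Real.pi * |t|)) / L := by
  have hL0 : (0 : ℝ) < L := by exact_mod_cast hL
  have h1 := PurC_full hρ t L hL
  have h2 : ‖(W1 ρ L d t - ∑ y ∈ Finset.range L, ((tp ρ ((y : ℝ) / L) ^ 2 : ℝ) : ℂ) *
      e1 (t * ((y : ℝ) / L))) / (L : ℂ)‖ ≤ |(d : ℝ)| / ρ / L := by
    rw [norm_div, Complex.norm_natCast]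
    exact div_le_div_of_nonneg_right (PurC_diff hρ d t L hL) hL0.le
  have h3 : W1 ρ L d t / (L : ℂ) - sT ρ t =
      (W1 ρ L d t - ∑ y ∈ Finset.range L, ((tp ρ ((y : ℝ) / L) ^ 2 : ℝ) : ℂ) *
      e1 (t * ((y : ℝ) / L))) / (L : ℂ) + ((∑ y ∈ Finset.range L,
        ((tp ρ ((y : ℝ) / L) ^ 2 : ℝ) : ℂ) * e1 (t * ((y : ℝ) / L))) / (L : ℂ) - sT ρ t) := by
    ring
  rw [h3, add_div]
  exact (norm_add_le _ _).trans (add_le_add h2 h1)

private lemma PurC_W1_le (ρ : ℝ) (L : ℕ) (hL : 0 < L) (d : ℤ) (t : ℝ) :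
    ‖W1 ρ L d t / (L : ℂ)‖ ≤ 1 := by
  have hL0 : (0 : ℝ) < L := by exact_mod_cast hL
  rw [norm_div, Complex.norm_natCast, div_le_one hL0]
  unfold W1
  refine (norm_sum_le _ _).trans ?_
  have h : ∀ y ∈ Finset.Ico (0 : ℤ) L,
      ‖((tp ρ ((y : ℝ) / L) * tp ρ (((y + d : ℤ) : ℝ) / L) : ℝ) : ℂ) *
        e1 (t * ((y : ℝ) / L))‖ ≤ 1 := by
    intro y _
    rw [norm_mul, norm_e1, mul_one, Complex.norm_real, Real.norm_eq_abs,
      abs_of_nonneg (mul_nonneg (PurC_tp_nonneg _ _) (PurC_tp_nonneg _ _))]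
    exact mul_le_one₀ (PurC_tp_le _ _) (PurC_tp_nonneg _ _) (PurC_tp_le _ _)
  refine (Finset.sum_le_sum h).trans_eq ?_
  rw [Finset.sum_const, Int.card_Ico, nsmul_eq_mul]
  simp only [sub_zero, Int.toNat_natCast, mul_one]

private lemma PurC_sT_le (ρ : ℝ) (t : ℝ) : ‖sT ρ t‖ ≤ 1 := by
  unfold sT
  refine (intervalIntegral.norm_integral_le_of_norm_le_const (C := 1) fun u _ => ?_).trans_eq ?_
  · rw [norm_mul, norm_e1, mul_one, Complex.norm_real, Real.norm_eq_abs,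
      abs_of_nonneg (sq_nonneg _)]
    exact pow_le_one₀ (PurC_tp_nonneg _ _) (PurC_tp_le _ _)
  · norm_num

private lemma PurC_prod {ι : Type*} (S : Finset ι) (a b : ι → ℂ) (ha : ∀ i, ‖a i‖ ≤ 1)
    (hb : ∀ i, ‖b i‖ ≤ 1) : ‖∏ i ∈ S, a i - ∏ i ∈ S, b i‖ ≤ ∑ i ∈ S, ‖a i - b i‖ := by
  classical
  induction S using Finset.induction_on with
  | empty => simp
  | insert i S hi ih =>
    rw [Finset.prod_insert hi, Finset.prod_insert hi, Finset.sum_insert hi]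
    have h1 : a i * ∏ j ∈ S, a j - b i * ∏ j ∈ S, b j =
        (a i - b i) * ∏ j ∈ S, a j + b i * (∏ j ∈ S, a j - ∏ j ∈ S, b j) := by ring
    have h2 : ‖∏ j ∈ S, a j‖ ≤ 1 := by
      rw [norm_prod]
      exact Finset.prod_le_one (fun _ _ => norm_nonneg _) fun j _ => ha j
    rw [h1]
    refine (norm_add_le _ _).trans ?_
    rw [norm_mul, norm_mul]
    refine add_le_add ?_ ?_
    · exact mul_le_of_le_one_right (norm_nonneg _) h2
    · exact (mul_le_of_le_one_left (norm_nonneg _) (hb i)).trans ih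

theorem cX_rate {n : ℕ} {ρ : ℝ} (hρ : 0 < ρ) (hρ2 : ρ ≤ 1 / 2) (H : Matrix (Fin n) (Fin n) ℝ)
    (b : Fin n → ℝ) {K : ℝ} (hK : 0 ≤ K) (d : Fin n → ℤ) {η : ℝ} (hη : 0 < η) :
    ∀ᶠ L : ℕ in atTop, ∀ s : Fin n → ℝ, (∀ i, |s i| ≤ K) →
      ‖cX ρ H b L s d / (L : ℂ) ^ n - gX ρ H b s d‖ ≤ η := by
  set C : ℝ := 2 * Real.pi * (|quad H (fun i => (d i : ℝ))| / 2 + ∑ i, K * |(d i : ℝ)|) +
    ∑ i, (|(d i : ℝ)| / ρ + (2 / ρ + 2 * Real.pi * (|∑ j, H i j * (d j : ℝ)| + K))) with hC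
  have hlim := tendsto_const_div_atTop_nhds_zero_nat C
  filter_upwards [eventually_gt_atTop 0, hlim.eventually_le_const hη] with L hL hLη s hs
  have hL0 : (0 : ℝ) < L := by exact_mod_cast hL
  refine le_trans ?_ hLη
  set T : Fin n → ℝ := fun i => ∑ j, H i j * (d j : ℝ) + s i with hT
  set a : Fin n → ℂ := fun i => W1 ρ L (d i) (T i) / (L : ℂ) with ha
  set b' : Fin n → ℂ := fun i => sT ρ (T i) with hb'
  set A : ℂ := e1 (quad H (fun i => (d i : ℝ)) / (2 * L) + ∑ i, (b i + s i / L) * (d i : ℝ)) with hA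
  set A' : ℂ := e1 (∑ i, b i * (d i : ℝ)) with hA'
  have h1 : cX ρ H b L s d / (L : ℂ) ^ n = A * ∏ i, a i := by
    rw [ha, Finset.prod_div_distrib, Finset.prod_const, Finset.card_univ, Fintype.card_fin,
      mul_div_assoc']
    rfl
  have h2 : gX ρ H b s d = A' * ∏ i, b' i := rfl
  have hprod := PurC_prod Finset.univ a b' (fun i => PurC_W1_le ρ L hL _ _)
    fun i => PurC_sT_le ρ _
  have hna : ‖∏ i, a i‖ ≤ 1 := by
    rw [norm_prod]
    exact Finset.prod_le_one (fun _ _ => norm_nonneg _) fun j _ => PurC_W1_le ρ L hL _ _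
  have hAA : ‖A - A'‖ ≤ 2 * Real.pi * ((|quad H (fun i => (d i : ℝ))| / 2 +
      ∑ i, K * |(d i : ℝ)|) / L) := by
    refine (PurC_e1_lip _ _).trans ?_
    refine mul_le_mul_of_nonneg_left ?_ Real.two_pi_pos.le
    have h3 : quad H (fun i => (d i : ℝ)) / (2 * L) + ∑ i, (b i + s i / L) * (d i : ℝ) -
        ∑ i, b i * (d i : ℝ) =
        (quad H (fun i => (d i : ℝ)) / 2 + ∑ i, s i * (d i : ℝ)) / L := by
      rw [add_sub_assoc, ← Finset.sum_sub_distrib, add_div, Finset.sum_div, div_div]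
      congr 1
      refine Finset.sum_congr rfl fun i _ => ?_
      ring
    rw [h3, abs_div, abs_of_pos hL0]
    refine div_le_div_of_nonneg_right ?_ hL0.le
    refine (abs_add_le _ _).trans (add_le_add ?_ ?_)
    · rw [abs_div, abs_two]
    · refine (Finset.abs_sum_le_sum_abs _ _).trans (Finset.sum_le_sum fun i _ => ?_)
      rw [abs_mul]
      exact mul_le_mul_of_nonneg_right (hs i) (abs_nonneg _)
  have hab : ∑ i, ‖a i - b' i‖ ≤ ∑ i, (|(d i : ℝ)| / ρ +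
      (2 / ρ + 2 * Real.pi * (|∑ j, H i j * (d j : ℝ)| + K))) / L := by
    refine Finset.sum_le_sum fun i _ => ?_
    refine (W1_rate hρ hρ2 (d i) (T i) hL).trans ?_
    refine div_le_div_of_nonneg_right ?_ hL0.le
    have h4 : |T i| ≤ |∑ j, H i j * (d j : ℝ)| + K :=
      (abs_add_le _ _).trans (add_le_add le_rfl (hs i))
    have h5 := mul_le_mul_of_nonneg_left h4 Real.two_pi_pos.le
    linarith
  have h6 : A * ∏ i, a i - A' * ∏ i, b' i =
      (A - A') * ∏ i, a i + A' * (∏ i, a i - ∏ i, b' i) := by ring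
  have hA1 : ‖A'‖ = 1 := norm_e1 _
  rw [h1, h2, h6]
  refine (norm_add_le _ _).trans ?_
  rw [norm_mul, norm_mul, hA1, one_mul]
  calc ‖A - A'‖ * ‖∏ i, a i‖ + ‖∏ i, a i - ∏ i, b' i‖
      ≤ ‖A - A'‖ + ∑ i, ‖a i - b' i‖ :=
        add_le_add (mul_le_of_le_one_right (norm_nonneg _) hna) hprod
    _ ≤ _ := add_le_add hAA hab
    _ = C / L := by
        rw [← Finset.sum_div, mul_div_assoc', ← add_div]

end Vale.Agent.P110U
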