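import Vale.Agent.Lib.P110T.Pur.A
import Vale.Agent.Lib.P110T.Pur.B
import Vale.Agent.Lib.P110T.Pur.C
import Vale.Agent.Lib.P110U.S7

/-! P110T local purity in shift form: module D, uniform convergence (same proof as S7). -/

namespace Vale.Agent.P110U

open MeasureTheory Filter Topology
open scoped ComplexConjugate ENNReal
open Vale.Agent.P110F

open Classical in
private lemma D_tail {ι : Type} (w : ι → ℝ) (hw : Summable w) {δ : ℝ} (hδ : 0 < δ) :
    ∃ (F : Finset ι) (η : ℝ), 0 < η ∧ ∀ x : ι → ℂ, (∀ d, ‖x d‖ ≤ w d) →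
      (∀ d ∈ F, ‖x d‖ ≤ η) → ‖∑' d, x d‖ ≤ δ := by
  obtain ⟨F, hF⟩ := (hw.hasSum.eventually
    (lt_mem_nhds (show ∑' d, w d - δ / 2 < ∑' d, w d by linarith))).exists
  have hc : (0 : ℝ) < 2 * (F.card + 1) := by positivity
  refine ⟨F, δ / (2 * (F.card + 1)), by positivity, fun x hx hxF => ?_⟩
  have h1 : HasSum (fun d => if d ∈ F then (δ / (2 * (F.card + 1)) - w d) else 0)
      (∑ d ∈ F, (if d ∈ F then (δ / (2 * (F.card + 1)) - w d) else 0)) :=
    hasSum_sum_of_ne_finset_zero fun d hd => if_neg hd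
  have h2 := hw.hasSum.add h1
  have h3 : ∀ d, ‖x d‖ ≤ w d + (if d ∈ F then (δ / (2 * (F.card + 1)) - w d) else 0) := by
    intro d
    by_cases hd : d ∈ F
    · rw [if_pos hd]
      have := hxF d hd
      linarith
    · rw [if_neg hd, add_zero]
      exact hx d
  refine (tsum_of_norm_bounded h2 h3).trans ?_
  have h4 : ∑ d ∈ F, (if d ∈ F then (δ / (2 * (F.card + 1)) - w d) else 0) =
      F.card * (δ / (2 * (F.card + 1))) - ∑ d ∈ F, w d := by
    rw [Finset.sum_congr rfl fun d hd => if_pos hd, Finset.sum_sub_distrib, Finset.sum_const,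
      nsmul_eq_mul]
  rw [h4]
  have h5 : (F.card : ℝ) * (δ / (2 * (F.card + 1))) ≤ δ / 2 := by
    rw [mul_div_assoc', div_le_div_iff₀ hc (by norm_num)]
    nlinarith [Nat.cast_nonneg (α := ℝ) F.card]
  linarith

private lemma D_mem_dbox {n : ℕ} (d : Fin n → ℤ) : ∀ᶠ L : ℕ in atTop, d ∈ dbox n L := by
  filter_upwards [eventually_gt_atTop (∑ i, (d i).natAbs)] with L hL
  unfold dbox
  rw [Fintype.mem_piFinset]
  intro i
  have h1 : (d i).natAbs ≤ ∑ i, (d i).natAbs :=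
    Finset.single_le_sum (f := fun i => (d i).natAbs) (fun _ _ => Nat.zero_le _)
      (Finset.mem_univ i)
  rw [Finset.mem_Ioo]
  omega

private lemma D_wT_nonneg {n : ℕ} (ρ : ℝ) (H : Matrix (Fin n) (Fin n) ℝ) (d : Fin n → ℤ) :
    0 ≤ wT ρ H d := by
  unfold wT
  exact Finset.prod_nonneg fun i _ => by positivity

open Classical in
theorem uniform_X {n : ℕ} {ρ : ℝ} (hρ : 0 < ρ) (hρ2 : ρ ≤ 1 / 2) {c : ℝ} (hc : 0 < c)
    (A : Matrix (Fin n) (Fin n) ℤ) (hA : A.det ≠ 0) (hs : A.IsSymm)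
    (hrow : ∀ i, ∑ j, |scl c A i j| ≤ 1 / 4) (b : Fin n → ℝ) {K : ℝ} (hK : 0 ≤ K)
    {δ : ℝ} (hδ : 0 < δ) :
    ∀ᶠ L : ℕ in atTop, ∀ θ s : Fin n → ℝ, (∀ i, |s i| ≤ K) →
      ‖TT ρ (scl c A) b L (fun i => θ i + s i / L) * conj (TT ρ (scl c A) b L θ) /
        (L : ℂ) ^ n - GX ρ (scl c A) b s θ‖ ≤ δ := by
  have hH : (scl c A).IsSymm := by
    ext i j
    rw [Matrix.transpose_apply]
    unfold scl
    rw [hs.apply]
  have hsw : Summable fun d : Fin n → ℤ => wT ρ (scl c A) d := summable_wT hρ hc A hA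
  set H : Matrix (Fin n) (Fin n) ℝ := scl c A with hHdef
  set w : (Fin n → ℤ) → ℝ := fun d => (2 + 2 * K ^ 2) ^ n * wT ρ H d with hw
  have hw0 : ∀ d, 0 ≤ w d := fun d => mul_nonneg (by positivity) (D_wT_nonneg ρ H d)
  have hws : Summable w := hsw.mul_left _
  obtain ⟨F, η, hη, hF⟩ := D_tail (fun d => 2 * w d) (hws.mul_left 2) hδ
  have hev1 : ∀ᶠ L : ℕ in atTop, ∀ d ∈ F, d ∈ dbox n L :=
    (Finset.eventually_all F).2 fun d _ => D_mem_dbox d
  have hev2 : ∀ᶠ L : ℕ in atTop, ∀ d ∈ F, ∀ s : Fin n → ℝ, (∀ i, |s i| ≤ K) →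
      ‖cX ρ H b L s d / (L : ℂ) ^ n - gX ρ H b s d‖ ≤ η :=
    (Finset.eventually_all F).2 fun d _ => cX_rate hρ hρ2 H b hK d hη
  have hev3 : ∀ᶠ L : ℕ in atTop, 4 * K ≤ (L : ℝ) :=
    (tendsto_natCast_atTop_atTop (R := ℝ)).eventually_ge_atTop _
  filter_upwards [hev1, hev2, hev3, eventually_gt_atTop 0] with L hL1 hL2 hL3 hL0 θ s hsK
  have hLpos : (0 : ℝ) < (L : ℝ) ^ n := pow_pos (by exact_mod_cast hL0) n
  set e : (Fin n → ℤ) → ℂ := fun d => e1 (∑ i, (d i : ℝ) * θ i) with he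
  have hen : ∀ d, ‖e d‖ = 1 := fun d => norm_e1 _
  set D : (Fin n → ℤ) → ℂ := fun d => if d ∈ dbox n L then cX ρ H b L s d / (L : ℂ) ^ n else 0
    with hD
  have hDle : ∀ d, ‖D d‖ ≤ w d := by
    intro d
    simp only [hD]
    split_ifs with hd
    · have h1 := norm_cX_le hρ hρ2 H hrow b hL0 hK hL3 s hsK d hd
      rw [norm_div, norm_pow, Complex.norm_natCast, div_le_iff₀ hLpos, mul_comm]
      exact h1
    · rw [norm_zero]
      exact hw0 d
  have hgle : ∀ d, ‖gX ρ H b s d‖ ≤ w d := fun d => norm_gX_le hρ hρ2 H b hK s hsK d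
  have s1 : Summable fun d => gX ρ H b s d * e d := by
    refine Summable.of_norm_bounded hws fun d => ?_
    rw [norm_mul, hen, mul_one]
    exact hgle d
  have s2 : Summable fun d => D d * e d := by
    refine Summable.of_norm_bounded hws fun d => ?_
    rw [norm_mul, hen, mul_one]
    exact hDle d
  have h1 : TT ρ H b L (fun i => θ i + s i / L) * conj (TT ρ H b L θ) / (L : ℂ) ^ n =
      ∑' d, D d * e d := by
    rw [tsum_eq_sum (s := dbox n L) (fun d hd => by simp only [hD]; rw [if_neg hd, zero_mul])]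
    rw [cross_TT hρ hL0 H hH b θ s, Finset.sum_div]
    refine Finset.sum_congr rfl fun d hd => ?_
    simp only [hD]
    rw [if_pos hd]
    ring
  have h4 : TT ρ H b L (fun i => θ i + s i / L) * conj (TT ρ H b L θ) / (L : ℂ) ^ n -
      GX ρ H b s θ = ∑' d, (D d - gX ρ H b s d) * e d := by
    unfold GX
    rw [h1, ← s2.tsum_sub s1]
    refine tsum_congr fun d => ?_
    ring
  rw [h4]
  refine hF _ (fun d => ?_) (fun d hd => ?_)
  · rw [norm_mul, hen, mul_one]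
    refine (norm_sub_le _ _).trans ?_
    have h5 := hDle d
    have h6 := hgle d
    linarith
  · rw [norm_mul, hen, mul_one]
    simp only [hD]
    rw [if_pos (hL1 d hd)]
    exact hL2 d hd s hsK

/-- the limit at shift zero is uniformly continuous in `θ` -/
theorem GX_unif {n : ℕ} {ρ : ℝ} (hρ : 0 < ρ) (hρ2 : ρ ≤ 1 / 2) {c : ℝ} (hc : 0 < c)
    (A : Matrix (Fin n) (Fin n) ℤ) (hA : A.det ≠ 0) (b : Fin n → ℝ) {K : ℝ} (hK : 0 ≤ K)
    {δ : ℝ} (hδ : 0 < δ) :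
    ∀ᶠ L : ℕ in atTop, ∀ θ s : Fin n → ℝ, (∀ i, |s i| ≤ K) →
      ‖GX ρ (scl c A) b 0 (fun i => θ i + s i / L) - GX ρ (scl c A) b 0 θ‖ ≤ δ := by
  have hsw : Summable fun d : Fin n → ℤ => wT ρ (scl c A) d := summable_wT hρ hc A hA
  set H : Matrix (Fin n) (Fin n) ℝ := scl c A with hHdef
  set w : (Fin n → ℤ) → ℝ := fun d => (2 + 2 * (0 : ℝ) ^ 2) ^ n * wT ρ H d with hw
  have hws : Summable w := hsw.mul_left _
  have hgle : ∀ d, ‖gX ρ H b 0 d‖ ≤ w d := fun d =>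
    norm_gX_le hρ hρ2 H b le_rfl 0 (fun i => by simp) d
  have hw0 : ∀ d, 0 ≤ w d := fun d => (norm_nonneg _).trans (hgle d)
  obtain ⟨F, η, hη, hF⟩ := D_tail (fun d => 2 * w d) (hws.mul_left 2) hδ
  have hev : ∀ᶠ L : ℕ in atTop, ∀ d ∈ F,
      w d * (2 * Real.pi * (∑ i, |(d i : ℝ)| * K)) / (L : ℝ) ≤ η := by
    refine (Finset.eventually_all F).2 fun d _ => ?_
    have h1 : Tendsto (fun L : ℕ => w d * (2 * Real.pi * (∑ i, |(d i : ℝ)| * K)) / (L : ℝ)) atTop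
        (𝓝 0) := tendsto_const_nhds.div_atTop (tendsto_natCast_atTop_atTop (R := ℝ))
    exact h1.eventually (ge_mem_nhds hη)
  filter_upwards [hev, eventually_gt_atTop 0] with L hL1 hL0 θ s hsK
  have hLpos : (0 : ℝ) < (L : ℝ) := by exact_mod_cast hL0
  have hsum : ∀ θ : Fin n → ℝ, Summable fun d => gX ρ H b 0 d * e1 (∑ i, (d i : ℝ) * θ i) := by
    intro θ
    refine Summable.of_norm_bounded hws fun d => ?_
    rw [norm_mul, norm_e1, mul_one]
    exact hgle d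
  have h4 : GX ρ H b 0 (fun i => θ i + s i / L) - GX ρ H b 0 θ =
      ∑' d : Fin n → ℤ, gX ρ H b 0 d * (e1 (∑ i, (d i : ℝ) * (θ i + s i / L)) -
        e1 (∑ i, (d i : ℝ) * θ i)) := by
    unfold GX
    rw [← (hsum _).tsum_sub (hsum θ)]
    refine tsum_congr fun d => ?_
    ring
  rw [h4]
  refine hF _ (fun d => ?_) (fun d hd => ?_)
  · rw [norm_mul]
    have h5 : ‖e1 (∑ i, (d i : ℝ) * (θ i + s i / L)) - e1 (∑ i, (d i : ℝ) * θ i)‖ ≤ 2 := by
      refine (norm_sub_le _ _).trans ?_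
      rw [norm_e1, norm_e1]
      norm_num
    calc ‖gX ρ H b 0 d‖ * ‖e1 (∑ i, (d i : ℝ) * (θ i + s i / L)) - e1 (∑ i, (d i : ℝ) * θ i)‖
        ≤ w d * 2 := mul_le_mul (hgle d) h5 (norm_nonneg _) (hw0 d)
      _ = 2 * w d := by ring
  · rw [norm_mul]
    have h6 : e1 (∑ i, (d i : ℝ) * (θ i + s i / L)) - e1 (∑ i, (d i : ℝ) * θ i) =
        e1 (∑ i, (d i : ℝ) * θ i) * (e1 ((∑ i, (d i : ℝ) * s i) / L) - 1) := by
      rw [mul_sub, mul_one, ← e1_add]
      congr 2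
      rw [Finset.sum_div, ← Finset.sum_add_distrib]
      exact Finset.sum_congr rfl fun i _ => by ring
    have h7 : ‖e1 ((∑ i, (d i : ℝ) * s i) / L) - 1‖ ≤
        2 * Real.pi * (∑ i, |(d i : ℝ)| * K) / L := by
      have h8 : e1 ((∑ i, (d i : ℝ) * s i) / L) =
          Complex.exp (Complex.I * ((2 * Real.pi * ((∑ i, (d i : ℝ) * s i) / L) : ℝ) : ℂ)) := by
        unfold e1
        congr 1
        push_cast
        ring
      rw [h8]
      refine Real.norm_exp_I_mul_ofReal_sub_one_le.trans ?_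
      rw [Real.norm_eq_abs, abs_mul, abs_of_pos (by positivity : (0 : ℝ) < 2 * Real.pi), abs_div,
        abs_of_pos hLpos, mul_div_assoc]
      refine mul_le_mul_of_nonneg_left ?_ (by positivity)
      refine div_le_div_of_nonneg_right ?_ hLpos.le
      refine (Finset.abs_sum_le_sum_abs _ _).trans (Finset.sum_le_sum fun i _ => ?_)
      rw [abs_mul]
      exact mul_le_mul_of_nonneg_left (hsK i) (abs_nonneg _)
    rw [h6, norm_mul, norm_e1, one_mul]
    calc ‖gX ρ H b 0 d‖ * ‖e1 ((∑ i, (d i : ℝ) * s i) / L) - 1‖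
        ≤ w d * (2 * Real.pi * (∑ i, |(d i : ℝ)| * K) / L) :=
          mul_le_mul (hgle d) h7 (norm_nonneg _) (hw0 d)
      _ = w d * (2 * Real.pi * (∑ i, |(d i : ℝ)| * K)) / L := by ring
      _ ≤ η := hL1 d hd

end Vale.Agent.P110U
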