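import Vale.Agent.Lib.P110U.S5

/-!
P110T local purity in shift form: definitions.  For a bounded shift `s` the product
`TT (θ + s / L) * conj (TT θ)` has the coefficients `cX`, and after division by `L ^ n` the limit
coefficients `gX`.
-/

namespace Vale.Agent.P110U

open MeasureTheory Filter Topology
open scoped ComplexConjugate ENNReal
open Vale.Agent.P110F

/-- Coefficients of the shifted correlation. -/
noncomputable def cX {n : ℕ} (ρ : ℝ) (H : Matrix (Fin n) (Fin n) ℝ) (b : Fin n → ℝ) (L : ℕ)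
    (s : Fin n → ℝ) (d : Fin n → ℤ) : ℂ :=
  e1 (quad H (fun i => (d i : ℝ)) / (2 * L) + ∑ i, (b i + s i / L) * (d i : ℝ)) *
    ∏ i, W1 ρ L (d i) (∑ j, H i j * (d j : ℝ) + s i)

/-- Limit coefficients of the shifted correlation. -/
noncomputable def gX {n : ℕ} (ρ : ℝ) (H : Matrix (Fin n) (Fin n) ℝ) (b : Fin n → ℝ)
    (s : Fin n → ℝ) (d : Fin n → ℤ) : ℂ :=
  e1 (∑ i, b i * (d i : ℝ)) * ∏ i, sT ρ (∑ j, H i j * (d j : ℝ) + s i)

/-- The limit of the shifted correlation. -/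
noncomputable def GX {n : ℕ} (ρ : ℝ) (H : Matrix (Fin n) (Fin n) ℝ) (b : Fin n → ℝ)
    (s θ : Fin n → ℝ) : ℂ :=
  ∑' d : Fin n → ℤ, gX ρ H b s d * e1 (∑ i, (d i : ℝ) * θ i)

end Vale.Agent.P110U
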