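import Vale.Agent.Lib.P110T.Pur.Defs
import Vale.Agent.Lib.P110T.Pur.B
import Vale.Agent.Lib.P110U.S8a
import Vale.Agent.Lib.P110F.F5

/-! P110T local purity in shift form: module E, Fejer means (same proof as S8a). -/

namespace Vale.Agent.P110U

open MeasureTheory Filter Topology
open scoped ComplexConjugate ENNReal
open Vale.Agent.P110F

private theorem PurE_e1_sum {ι : Type} (s : Finset ι) (f : ι → ℝ) :
    e1 (∑ i ∈ s, f i) = ∏ i ∈ s, e1 (f i) := by
  classical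
  induction s using Finset.induction_on with
  | empty => simp [e1_zero]
  | insert a s ha ih => rw [Finset.sum_insert ha, Finset.prod_insert ha, e1_add, ih]

private theorem PurE_tp_cont (ρ : ℝ) : Continuous (tp ρ) := by
  unfold tp
  fun_prop

private theorem PurE_tp_nonneg (ρ u : ℝ) : 0 ≤ tp ρ u := le_max_left _ _

private theorem PurE_tp_le (ρ u : ℝ) : tp ρ u ≤ 1 :=
  max_le zero_le_one (min_le_left _ _)

/-- the tapered exponential of the affine image of `u` -/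
private noncomputable def PurEF {n : ℕ} (ρ : ℝ) (H : Matrix (Fin n) (Fin n) ℝ) (b s : Fin n → ℝ)
    (d : Fin n → ℤ) (u : Fin n → ℝ) : ℂ :=
  ((∏ i, tp ρ (u i) ^ 2 : ℝ) : ℂ) *
    e1 (∑ i, (d i : ℝ) * (b i + ∑ j, H i j * u j) + ∑ i, s i * u i)

private theorem PurE_cont {n : ℕ} (ρ : ℝ) (H : Matrix (Fin n) (Fin n) ℝ) (b s : Fin n → ℝ)
    (d : Fin n → ℤ) : Continuous (PurEF ρ H b s d) := by
  unfold PurEF
  have h1 : Continuous fun u : Fin n → ℝ => (∏ i, tp ρ (u i) ^ 2 : ℝ) :=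
    continuous_finsetProd _ fun i _ => ((PurE_tp_cont ρ).comp (continuous_apply i)).pow 2
  have h2 : Continuous fun u : Fin n → ℝ =>
      e1 (∑ i, (d i : ℝ) * (b i + ∑ j, H i j * u j) + ∑ i, s i * u i) := by
    refine continuous_e1.comp ?_
    fun_prop
  exact (Complex.continuous_ofReal.comp h1).mul h2

private theorem PurE_norm {n : ℕ} (ρ : ℝ) (H : Matrix (Fin n) (Fin n) ℝ) (b s : Fin n → ℝ)
    (d : Fin n → ℤ) (u : Fin n → ℝ) : ‖PurEF ρ H b s d u‖ ≤ 1 := by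
  unfold PurEF
  rw [norm_mul, norm_e1, mul_one, Complex.norm_real, Real.norm_eq_abs,
    abs_of_nonneg (Finset.prod_nonneg fun i _ => sq_nonneg _)]
  refine Finset.prod_le_one (fun i _ => sq_nonneg _) fun i _ => ?_
  have h1 := PurE_tp_nonneg ρ (u i)
  have h2 := PurE_tp_le ρ (u i)
  nlinarith

private theorem PurE_cube_restrict {n : ℕ} :
    (volume : Measure (Fin n → ℝ)).restrict (cube n) =
      Measure.pi (fun _ : Fin n => (volume : Measure ℝ).restrict (Set.Icc (0 : ℝ) 1)) := by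
  unfold cube
  rw [volume_pi, Measure.restrict_pi_pi]

private theorem PurE_integrable {n : ℕ} (ρ : ℝ) (H : Matrix (Fin n) (Fin n) ℝ) (b s : Fin n → ℝ)
    (d : Fin n → ℤ) :
    Integrable (PurEF ρ H b s d) ((volume : Measure (Fin n → ℝ)).restrict (cube n)) := by
  have hfin : IsFiniteMeasure ((volume : Measure (Fin n → ℝ)).restrict (cube n)) := by
    rw [PurE_cube_restrict]
    infer_instance
  refine Integrable.of_bound (PurE_cont ρ H b s d).aestronglyMeasurable 1 ?_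
  exact Filter.Eventually.of_forall fun u => PurE_norm ρ H b s d u

private theorem PurE_int {n : ℕ} (ρ : ℝ) (H : Matrix (Fin n) (Fin n) ℝ) (hH : H.IsSymm)
    (b s : Fin n → ℝ) (d : Fin n → ℤ) : ∫ u in cube n, PurEF ρ H b s d u = gX ρ H b s d := by
  have h1 : ∀ u : Fin n → ℝ, PurEF ρ H b s d u = e1 (∑ i, b i * (d i : ℝ)) *
      ∏ j, (((tp ρ (u j) ^ 2 : ℝ) : ℂ) * e1 ((∑ i, H j i * (d i : ℝ) + s j) * u j)) := by
    intro u
    unfold PurEF
    rw [Finset.prod_mul_distrib, ← PurE_e1_sum, Complex.ofReal_prod]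
    rw [mul_left_comm, ← e1_add]
    congr 2
    have h2 : ∑ i, (d i : ℝ) * (b i + ∑ j, H i j * u j) =
        ∑ i, b i * (d i : ℝ) + ∑ i, ∑ j, (d i : ℝ) * (H i j * u j) := by
      rw [← Finset.sum_add_distrib]
      refine Finset.sum_congr rfl fun i _ => ?_
      rw [mul_add, Finset.mul_sum, mul_comm]
    rw [h2, Finset.sum_comm, add_assoc]
    congr 1
    rw [← Finset.sum_add_distrib]
    refine Finset.sum_congr rfl fun j _ => ?_
    rw [add_mul, Finset.sum_mul]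
    congr 1
    refine Finset.sum_congr rfl fun i _ => ?_
    rw [hH.apply i j]
    ring
  simp_rw [h1]
  rw [integral_const_mul, PurE_cube_restrict,
    integral_fintype_prod_eq_prod (fun (j : Fin n) (x : ℝ) =>
      ((tp ρ x ^ 2 : ℝ) : ℂ) * e1 ((∑ i, H j i * (d i : ℝ) + s j) * x))]
  unfold gX sT
  congr 1
  refine Finset.prod_congr rfl fun j _ => ?_
  rw [integral_Icc_eq_integral_Ioc, intervalIntegral.integral_of_le zero_le_one]

private theorem PurE_prod {n R : ℕ} (hR : 0 < R) (ρ : ℝ) (H : Matrix (Fin n) (Fin n) ℝ)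
    (b θ s : Fin n → ℝ) (u : Fin n → ℝ) :
    (((∏ i, tp ρ (u i) ^ 2) * ∏ i, K1 R (b i + ∑ j, H i j * u j + θ i) : ℝ) : ℂ) *
      e1 (∑ i, s i * u i) =
      ∑ d ∈ dbox n R, (((∏ i, (1 - |(d i : ℝ)| / R) : ℝ) : ℂ) *
        e1 (∑ i, (d i : ℝ) * θ i)) * PurEF ρ H b s d u := by
  rw [Complex.ofReal_mul, Complex.ofReal_prod (s := Finset.univ)
    (f := fun i => K1 R (b i + ∑ j, H i j * u j + θ i)),
    Finset.prod_congr rfl (fun i _ => K1_eq hR _), Finset.prod_univ_sum]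
  unfold dbox
  rw [Finset.mul_sum, Finset.sum_mul]
  refine Finset.sum_congr rfl fun d _ => ?_
  rw [Finset.prod_mul_distrib, Complex.ofReal_prod (s := Finset.univ)
    (f := fun i => (1 - |(d i : ℝ)| / R))]
  unfold PurEF
  have h : (∏ x, e1 ((d x : ℝ) * (b x + ∑ j, H x j * u j + θ x))) =
      e1 (∑ i, (d i : ℝ) * θ i) * e1 (∑ i, (d i : ℝ) * (b i + ∑ j, H i j * u j)) := by
    rw [← e1_add, ← PurE_e1_sum, ← Finset.sum_add_distrib]
    congr 1
    refine Finset.sum_congr rfl fun i _ => ?_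
    ring
  rw [h, e1_add (∑ i, (d i : ℝ) * (b i + ∑ j, H i j * u j))]
  ring

theorem fejer_X {n R : ℕ} (hR : 0 < R) (ρ : ℝ) (H : Matrix (Fin n) (Fin n) ℝ) (hH : H.IsSymm)
    (b θ s : Fin n → ℝ) :
    ∑ d ∈ dbox n R, ((∏ i, (1 - |(d i : ℝ)| / R) : ℝ) : ℂ) *
      (gX ρ H b s d * e1 (∑ i, (d i : ℝ) * θ i)) =
      ∫ u in cube n, (((∏ i, tp ρ (u i) ^ 2) *
        ∏ i, K1 R (b i + ∑ j, H i j * u j + θ i) : ℝ) : ℂ) * e1 (∑ i, s i * u i) := by
  simp_rw [PurE_prod hR ρ H b θ s]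
  rw [integral_finsetSum _ (fun d _ => (PurE_integrable ρ H b s d).const_mul _)]
  refine Finset.sum_congr rfl fun d _ => ?_
  rw [integral_const_mul, PurE_int ρ H hH]
  ring

theorem tendsto_fejer_X {n : ℕ} {ρ : ℝ} (hρ : 0 < ρ) (hρ2 : ρ ≤ 1 / 2) {c : ℝ} (hc : 0 < c)
    (A : Matrix (Fin n) (Fin n) ℤ) (hA : A.det ≠ 0) (hs : A.IsSymm) (b θ s : Fin n → ℝ) :
    Tendsto (fun R : ℕ => ∫ u in cube n, (((∏ i, tp ρ (u i) ^ 2) *
        ∏ i, K1 R (b i + ∑ j, scl c A i j * u j + θ i) : ℝ) : ℂ) * e1 (∑ i, s i * u i)) atTop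
      (𝓝 (GX ρ (scl c A) b s θ)) := by
  have hsym : (scl c A).IsSymm := by
    ext i j
    simp only [Matrix.transpose_apply, scl]
    rw [hs.apply i j]
  have hK : (0 : ℝ) ≤ ∑ i, |s i| := Finset.sum_nonneg fun i _ => abs_nonneg _
  have hsK : ∀ i, |s i| ≤ ∑ i, |s i| := fun i =>
    Finset.single_le_sum (f := fun i => |s i|) (fun j _ => abs_nonneg _) (Finset.mem_univ i)
  have hsum : Summable fun d : Fin n → ℤ =>
      gX ρ (scl c A) b s d * e1 (∑ i, (d i : ℝ) * θ i) := by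
    refine Summable.of_norm_bounded
      ((summable_wT hρ hc A hA).mul_left ((2 + 2 * (∑ i, |s i|) ^ 2) ^ n)) fun d => ?_
    rw [norm_mul, norm_e1, mul_one]
    exact norm_gX_le hρ hρ2 _ b hK s hsK d
  refine (fejer_tendsto hsum).congr' ?_
  filter_upwards [eventually_gt_atTop 0] with R hR
  exact fejer_X hR ρ (scl c A) hsym b θ s

end Vale.Agent.P110U
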