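import Vale.Agent.Lib.P110T.Pur.Defs
import Vale.Agent.Lib.P110U.S8

/-! P110T local purity in shift form: module F1, concentration of the Fejer kernels. -/

namespace Vale.Agent.P110U

open MeasureTheory Filter Topology
open scoped ComplexConjugate ENNReal
open Vale.Agent.P110F

private theorem F1_isCompact_cube (n : ℕ) : IsCompact (cube n) :=
  isCompact_univ_pi fun _ => isCompact_Icc

private theorem F1_measurableSet_cube (n : ℕ) : MeasurableSet (cube n) := by
  unfold cube
  exact MeasurableSet.univ_pi fun _ => measurableSet_Icc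

private theorem F1_continuous_prod {n : ℕ} (R : ℕ) :
    Continuous fun v : Fin n → ℝ => ∏ i, K1 R (v i) :=
  continuous_finsetProd _ fun i _ => (continuous_K1 R).comp (continuous_apply i)

private theorem F1_int {n R : ℕ} (hR : 0 < R) :
    ∫ v in hcube n, ∏ i, K1 R (v i) = 1 := by
  have h1 : (volume : Measure (Fin n → ℝ)).restrict (hcube n) =
      Measure.pi fun _ => (volume : Measure ℝ).restrict (Set.Ico 0 1) := by
    unfold hcube
    rw [volume_pi, Measure.restrict_pi_pi]
  rw [h1, integral_fintype_prod_eq_prod (fun _ : Fin n => K1 R)]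
  have h2 : ∫ t in Set.Ico (0 : ℝ) 1, K1 R t = 1 := by
    rw [integral_Ico_eq_integral_Ioc, ← intervalIntegral.integral_of_le zero_le_one,
      integral_K1 hR]
  rw [h2]
  simp

private theorem F1_lint {n R : ℕ} (hR : 0 < R) :
    ∫⁻ v in hcube n, ENNReal.ofReal (∏ i, K1 R (v i)) = 1 := by
  rw [← ofReal_integral_eq_lintegral_ofReal, F1_int hR, ENNReal.ofReal_one]
  · refine ((F1_continuous_prod R).continuousOn.integrableOn_compact
      (F1_isCompact_cube n)).mono_set ?_
    exact Set.pi_mono fun i _ => Set.Ico_subset_Icc_self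
  · exact Eventually.of_forall fun v => Finset.prod_nonneg fun i _ => K1_nonneg R _

private theorem F1_cont {n : ℕ} (R : ℕ) (H : Matrix (Fin n) (Fin n) ℝ) (w : Fin n → ℝ) :
    Continuous fun u : Fin n → ℝ => ∏ i, K1 R (w i + ∑ j, H i j * u j) :=
  continuous_finsetProd _ fun i _ => (continuous_K1 R).comp (by fun_prop)

/-- total mass, copy of the private `S8_inner` -/
theorem mass_bound {n : ℕ} {H : Matrix (Fin n) (Fin n) ℝ} (w : Fin n → ℝ)
    (hdet : H.det ≠ 0) (hrow : ∀ i, ∑ j, |H i j| ≤ 1 / 4) {R : ℕ} (hR : 0 < R) :
    ∫ u in cube n, ∏ i, K1 R (w i + ∑ j, H i j * u j) ≤ 1 / |H.det| := by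
  have h1 := lintegral_affine_le H hdet hrow w
    (fun v => ENNReal.ofReal (∏ i, K1 R (v i)))
    (ENNReal.measurable_ofReal.comp (F1_continuous_prod R).measurable) (fun v z => by
      simp only [K1_add_int])
  rw [F1_lint hR, mul_one, ← ofReal_integral_eq_lintegral_ofReal
    ((F1_cont R H w).continuousOn.integrableOn_compact (F1_isCompact_cube n))
    (Eventually.of_forall fun v => Finset.prod_nonneg fun i _ => K1_nonneg R _)] at h1
  exact (ENNReal.ofReal_le_ofReal_iff (by positivity)).1 h1

/-- the set of points whose `i`-th coordinate is far from the integers -/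
private def F1_far (n : ℕ) (η : ℝ) (i : Fin n) : Set (Fin n → ℝ) :=
  {v | ∀ z : ℤ, η ≤ |v i - z|}

private theorem F1_meas_far (n : ℕ) (η : ℝ) (i : Fin n) : MeasurableSet (F1_far n η i) := by
  unfold F1_far
  rw [Set.ofPred_forall]
  refine MeasurableSet.iInter fun z => ?_
  refine measurableSet_le measurable_const ?_
  exact ((measurable_pi_apply i).sub_const _).norm

private theorem F1_integral_Ico {R : ℕ} (hR : 0 < R) : ∫ t in Set.Ico (0 : ℝ) 1, K1 R t = 1 := by
  rw [← integral_Icc_eq_integral_Ico, integral_Icc_eq_integral_Ioc,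
    ← intervalIntegral.integral_of_le zero_le_one]
  exact integral_K1 hR

private theorem F1_lint2 {n R : ℕ} (hR : 0 < R) {η : ℝ} (hη : 0 < η) (i : Fin n) :
    ∫⁻ v in hcube n, (F1_far n η i).indicator
      (fun v => ENNReal.ofReal (∏ j, K1 R (v j))) v ≤ ENNReal.ofReal (1 / (4 * R * η ^ 2)) := by
  classical
  set G : Fin n → ℝ → ℝ := fun j t => if j = i then 1 / (4 * R * η ^ 2) else K1 R t with hG
  have hGint : ∀ j, Integrable (G j) ((volume : Measure ℝ).restrict (Set.Ico 0 1)) := by
    intro j
    have hc : Continuous (G j) := by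
      rw [hG]
      by_cases h : j = i
      · simp only [h, if_true]
        exact continuous_const
      · simp only [h, if_false]
        exact continuous_K1 R
    exact (hc.continuousOn.integrableOn_compact isCompact_Icc).mono_set Set.Ico_subset_Icc_self
  have hG0 : ∀ j t, 0 ≤ G j t := by
    intro j t
    rw [hG]
    by_cases h : j = i
    · simp only [h, if_true]
      positivity
    · simp only [h, if_false]
      exact K1_nonneg R t
  have hres : (volume : Measure (Fin n → ℝ)).restrict (hcube n) =
      Measure.pi fun _ : Fin n => (volume : Measure ℝ).restrict (Set.Ico 0 1) := by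
    unfold hcube
    exact Measure.restrict_pi_pi _ _
  calc ∫⁻ v in hcube n, (F1_far n η i).indicator
          (fun v => ENNReal.ofReal (∏ j, K1 R (v j))) v
      ≤ ∫⁻ v in hcube n, ENNReal.ofReal (∏ j, G j (v j)) := by
        refine lintegral_mono fun v => ?_
        by_cases hv : v ∈ F1_far n η i
        · rw [Set.indicator_of_mem hv]
          refine ENNReal.ofReal_le_ofReal ?_
          refine Finset.prod_le_prod (fun j _ => K1_nonneg R _) fun j _ => ?_
          rw [hG]
          by_cases h : j = i
          · simp only [h, if_true]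
            exact K1_le hR hη _ hv
          · simp only [h, if_false]
            exact le_rfl
        · rw [Set.indicator_of_notMem hv]
          exact bot_le
    _ = ENNReal.ofReal (∫ v in hcube n, ∏ j, G j (v j)) := by
        rw [ofReal_integral_eq_lintegral_ofReal]
        · rw [hres]
          exact Integrable.fintype_prod hGint
        · exact Filter.Eventually.of_forall fun v => Finset.prod_nonneg fun j _ => hG0 j _
    _ = ENNReal.ofReal (∏ j, ∫ t in Set.Ico (0 : ℝ) 1, G j t) := by
        rw [hres, integral_fintype_prod_eq_prod (𝕜 := ℝ) (fun j => G j)]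
    _ = ENNReal.ofReal (1 / (4 * R * η ^ 2)) := by
        congr 1
        rw [Finset.prod_eq_single i]
        · rw [hG]
          simp
        · intro j _ hj
          rw [hG]
          simp only [hj, if_false]
          exact F1_integral_Ico hR
        · intro h
          exact absurd (Finset.mem_univ i) h

/-- Outside a neighbourhood of a lattice point of the affine map the kernels have small mass:
cover by the sets where one coordinate is at distance at least `η` from the integers, and use the
bound of `S8_inner2` (its proof gives it without the hypothesis `hsep`). -/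
theorem far_bound {n : ℕ} {H : Matrix (Fin n) (Fin n) ℝ} {w : Fin n → ℝ}
    (hdet : H.det ≠ 0) (hrow : ∀ i, ∑ j, |H i j| ≤ 1 / 4) {η : ℝ} (hη : 0 < η)
    (S : Set (Fin n → ℝ)) (hS : MeasurableSet S) (hSc : S ⊆ cube n)
    (hsep : ∀ u ∈ S, ∃ i, ∀ z : ℤ, η ≤ |(w i + ∑ j, H i j * u j) - z|)
    {R : ℕ} (hR : 0 < R) :
    ∫ u in S, ∏ i, K1 R (w i + ∑ j, H i j * u j) ≤
      n * (1 / |H.det| * (1 / (4 * R * η ^ 2))) := by
  classical
  have hKm : Measurable fun v : Fin n → ℝ => ENNReal.ofReal (∏ j, K1 R (v j)) := by
    refine Measurable.ennreal_ofReal ?_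
    exact (continuous_finsetProd _ fun j _ =>
      (continuous_K1 R).comp (continuous_apply j)).measurable
  set f : Fin n → (Fin n → ℝ) → ℝ≥0∞ := fun i => (F1_far n η i).indicator
      (fun v => ENNReal.ofReal (∏ j, K1 R (v j))) with hf
  have hfm : ∀ i, Measurable (f i) := fun i => hKm.indicator (F1_meas_far n η i)
  have hper : ∀ i, ∀ (v : Fin n → ℝ) (z : Fin n → ℤ), f i (fun i => v i + z i) = f i v := by
    intro i v z
    have hmem : ((fun i => v i + z i) ∈ F1_far n η i) ↔ v ∈ F1_far n η i := by
      unfold F1_far
      simp only [Set.mem_ofPred_eq]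
      constructor
      · intro h y
        have := h (y + z i)
        push_cast at this
        rwa [show v i + (z i : ℝ) - ((y : ℝ) + (z i : ℝ)) = v i - y by ring] at this
      · intro h y
        have := h (y - z i)
        push_cast at this
        rwa [show v i - ((y : ℝ) - (z i : ℝ)) = v i + (z i : ℝ) - y by ring] at this
    rw [hf]
    by_cases hv : v ∈ F1_far n η i
    · simp only [Set.indicator_of_mem hv, Set.indicator_of_mem (hmem.2 hv), K1_add_int]
    · simp only [Set.indicator_of_notMem hv, Set.indicator_of_notMem (fun h => hv (hmem.1 h))]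
  have haff : Continuous fun u : Fin n → ℝ => (fun i => w i + ∑ j, H i j * u j : Fin n → ℝ) := by
    fun_prop
  have hbound : ∫⁻ u in S, ENNReal.ofReal (∏ i, K1 R (w i + ∑ j, H i j * u j)) ≤
      ENNReal.ofReal (n * (1 / |H.det| * (1 / (4 * R * η ^ 2)))) := by
    calc ∫⁻ u in S, ENNReal.ofReal (∏ i, K1 R (w i + ∑ j, H i j * u j))
        ≤ ∫⁻ u in S, ∑ i, f i (fun i => w i + ∑ j, H i j * u j) := by
          refine setLIntegral_mono' hS fun u hu => ?_
          obtain ⟨i, hi⟩ := hsep u hu
          have hmem : (fun i => w i + ∑ j, H i j * u j) ∈ F1_far n η i := by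
            intro z
            exact hi z
          calc ENNReal.ofReal (∏ i, K1 R (w i + ∑ j, H i j * u j))
              = f i (fun i => w i + ∑ j, H i j * u j) := by
                rw [hf]
                simp only [Set.indicator_of_mem hmem]
            _ ≤ ∑ i, f i (fun i => w i + ∑ j, H i j * u j) :=
                Finset.single_le_sum (f := fun i => f i (fun i => w i + ∑ j, H i j * u j))
                  (fun i _ => bot_le) (Finset.mem_univ i)
      _ ≤ ∫⁻ u in cube n, ∑ i, f i (fun i => w i + ∑ j, H i j * u j) :=
          lintegral_mono_set hSc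
      _ = ∑ i, ∫⁻ u in cube n, f i (fun i => w i + ∑ j, H i j * u j) := by
          rw [lintegral_finsetSum]
          intro i _
          exact (hfm i).comp haff.measurable
      _ ≤ ∑ _i : Fin n, ENNReal.ofReal (1 / |H.det|) * ENNReal.ofReal (1 / (4 * R * η ^ 2)) := by
          refine Finset.sum_le_sum fun i _ => ?_
          refine (lintegral_affine_le H hdet hrow w (f i) (hfm i) (hper i)).trans ?_
          gcongr
          exact F1_lint2 hR hη i
      _ = ENNReal.ofReal (n * (1 / |H.det| * (1 / (4 * R * η ^ 2)))) := by
          rw [Finset.sum_const, Finset.card_univ, Fintype.card_fin,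
            ENNReal.ofReal_mul (by positivity), ENNReal.ofReal_mul (by positivity),
            ENNReal.ofReal_natCast, nsmul_eq_mul]
  rw [integral_eq_lintegral_of_nonneg_ae]
  · refine ENNReal.toReal_le_of_le_ofReal (by positivity) hbound
  · exact Filter.Eventually.of_forall fun u => Finset.prod_nonneg fun i _ => K1_nonneg R _
  · exact (F1_cont R H w).aestronglyMeasurable

end Vale.Agent.P110U
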