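import Vale.Agent.Lib.P110T.Pur.Defs
import Vale.Agent.Lib.P110U.S8

/-! P110T local purity in shift form: module F2, lattice points. -/

namespace Vale.Agent.P110U

open MeasureTheory Filter Topology
open scoped ComplexConjugate ENNReal
open Vale.Agent.P110F

private theorem F2_cont {n : ℕ} (H : Matrix (Fin n) (Fin n) ℝ) (w : Fin n → ℝ) (i : Fin n) :
    Continuous fun u : Fin n → ℝ => ‖((w i + ∑ j, H i j * u j : ℝ) : UnitAddCircle)‖ := by
  have h1 : Continuous fun u : Fin n → ℝ => (w i + ∑ j, H i j * u j : ℝ) := by fun_prop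
  exact continuous_norm.comp ((AddCircle.continuous_mk' (1 : ℝ)).comp h1)

/-- Compactness: on a compact set without lattice points one coordinate stays away from the
integers.  (The norm of `AddCircle (1 : ℝ)` is the distance to the integers, it is continuous.) -/
theorem exists_sep {n : ℕ} (H : Matrix (Fin n) (Fin n) ℝ) (w : Fin n → ℝ)
    (S : Set (Fin n → ℝ)) (hS : IsCompact S)
    (h : ∀ u ∈ S, ∃ i, ∀ z : ℤ, w i + ∑ j, H i j * u j ≠ z) :
    ∃ η : ℝ, 0 < η ∧ ∀ u ∈ S, ∃ i, ∀ z : ℤ, η ≤ |(w i + ∑ j, H i j * u j) - z| := by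
  rcases S.eq_empty_or_nonempty with rfl | hne
  · exact ⟨1, one_pos, fun u hu => absurd hu (Set.notMem_empty u)⟩
  have hc : Continuous fun u : Fin n → ℝ =>
      ∑ i, ‖((w i + ∑ j, H i j * u j : ℝ) : UnitAddCircle)‖ :=
    continuous_finsetSum _ fun i _ => F2_cont H w i
  obtain ⟨u0, hu0, hmin⟩ := hS.exists_isMinOn hne hc.continuousOn
  set m : ℝ := ∑ i, ‖((w i + ∑ j, H i j * u0 j : ℝ) : UnitAddCircle)‖ with hm
  have hmpos : 0 < m := by
    obtain ⟨i, hi⟩ := h u0 hu0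
    have h1 : 0 < ‖((w i + ∑ j, H i j * u0 j : ℝ) : UnitAddCircle)‖ := by
      rw [UnitAddCircle.norm_eq]
      exact abs_pos.2 (sub_ne_zero.2 (hi _))
    exact lt_of_lt_of_le h1 (Finset.single_le_sum
      (f := fun i => ‖((w i + ∑ j, H i j * u0 j : ℝ) : UnitAddCircle)‖)
      (fun _ _ => norm_nonneg _) (Finset.mem_univ i))
  have hn1 : (0 : ℝ) < (n : ℝ) + 1 := by positivity
  refine ⟨m / (n + 1), by positivity, fun u hu => ?_⟩
  have h2 : m ≤ ∑ i, ‖((w i + ∑ j, H i j * u j : ℝ) : UnitAddCircle)‖ := hmin hu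
  by_contra hcon
  push Not at hcon
  have h3 : ∑ i, ‖((w i + ∑ j, H i j * u j : ℝ) : UnitAddCircle)‖ ≤
      ∑ _i : Fin n, m / ((n : ℝ) + 1) := by
    refine Finset.sum_le_sum fun i _ => ?_
    obtain ⟨z, hz⟩ := hcon i
    rw [UnitAddCircle.norm_eq]
    exact (round_le _ z).trans hz.le
  rw [Finset.sum_const, Finset.card_univ, Fintype.card_fin, nsmul_eq_mul] at h3
  have h4 : (n : ℝ) * (m / ((n : ℝ) + 1)) < m := by
    rw [← mul_div_assoc, div_lt_iff₀ hn1]
    nlinarith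
  linarith

/-- There is at most one lattice point. -/
theorem lattice_unique {n : ℕ} {H : Matrix (Fin n) (Fin n) ℝ} (hdet : H.det ≠ 0)
    (hrow : ∀ i, ∑ j, |H i j| ≤ 1 / 4) (w : Fin n → ℝ) {u v : Fin n → ℝ} (hu : u ∈ cube n)
    (hv : v ∈ cube n) (h1 : ∀ i, ∃ z : ℤ, w i + ∑ j, H i j * u j = z)
    (h2 : ∀ i, ∃ z : ℤ, w i + ∑ j, H i j * v j = z) : u = v := by
  have hu' : ∀ j, 0 ≤ u j ∧ u j ≤ 1 := fun j => hu j (Set.mem_univ j)
  have hv' : ∀ j, 0 ≤ v j ∧ v j ≤ 1 := fun j => hv j (Set.mem_univ j)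
  have h0 : H.mulVec (u - v) = 0 := by
    funext i
    obtain ⟨z1, hz1⟩ := h1 i
    obtain ⟨z2, hz2⟩ := h2 i
    have e : H.mulVec (u - v) i = (w i + ∑ j, H i j * u j) - (w i + ∑ j, H i j * v j) := by
      rw [add_sub_add_left_eq_sub, ← Finset.sum_sub_distrib]
      show ∑ j, H i j * (u - v) j = _
      refine Finset.sum_congr rfl fun j _ => ?_
      rw [Pi.sub_apply]
      ring
    have hb : |H.mulVec (u - v) i| ≤ 1 / 4 := by
      show |∑ j, H i j * (u - v) j| ≤ 1 / 4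
      refine (Finset.abs_sum_le_sum_abs _ _).trans ((Finset.sum_le_sum fun j _ => ?_).trans (hrow i))
      rw [abs_mul]
      have h3 : |(u - v) j| ≤ 1 := by
        rw [Pi.sub_apply, abs_le]
        constructor <;> linarith [(hu' j).1, (hu' j).2, (hv' j).1, (hv' j).2]
      calc |H i j| * |(u - v) j| ≤ |H i j| * 1 := by gcongr
        _ = |H i j| := mul_one _
    rw [hz1, hz2] at e
    have e2 : H.mulVec (u - v) i = ((z1 - z2 : ℤ) : ℝ) := by
      rw [e]
      push_cast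
      ring
    rw [e2] at hb ⊢
    have h5 : |((z1 - z2 : ℤ) : ℝ)| < 1 := by linarith
    have h6 : |z1 - z2| < 1 := by exact_mod_cast h5
    have h7 : z1 - z2 = 0 := Int.abs_lt_one_iff.1 h6
    rw [h7]
    simp
  have h3 := Matrix.eq_zero_of_mulVec_eq_zero hdet h0
  exact sub_eq_zero.1 h3

end Vale.Agent.P110U
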