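import Vale.Agent.Lib.P110T.Pur.E
import Vale.Agent.Lib.P110T.Pur.F1
import Vale.Agent.Lib.P110T.Pur.F2

/-! P110T local purity in shift form: module G, the limit is concentrated at one point. -/

namespace Vale.Agent.P110U

open MeasureTheory Filter Topology
open scoped ComplexConjugate ENNReal
open Vale.Agent.P110F

private theorem PG_isCompact_cube (n : ℕ) : IsCompact (cube n) :=
  isCompact_univ_pi fun _ => isCompact_Icc

private theorem PG_measurableSet_cube (n : ℕ) : MeasurableSet (cube n) := by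
  unfold cube
  exact MeasurableSet.univ_pi fun _ => measurableSet_Icc

private theorem PG_tp (ρ u : ℝ) : 0 ≤ tp ρ u ∧ tp ρ u ≤ 1 := by
  unfold tp
  exact ⟨le_max_left _ _, max_le zero_le_one (min_le_left _ _)⟩

private theorem PG_continuous_tp (ρ : ℝ) : Continuous (tp ρ) := by
  unfold tp
  exact continuous_const.max (continuous_const.min
    ((continuous_id.div_const ρ).min ((continuous_const.sub continuous_id).div_const ρ)))

private theorem PG_cont {n : ℕ} (R : ℕ) (H : Matrix (Fin n) (Fin n) ℝ) (w : Fin n → ℝ) :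
    Continuous fun u : Fin n → ℝ => ∏ i, K1 R (w i + ∑ j, H i j * u j) :=
  continuous_finsetProd _ fun i _ => (continuous_K1 R).comp (by fun_prop)

private theorem PG_det {n : ℕ} {c : ℝ} (hc : 0 < c) {A : Matrix (Fin n) (Fin n) ℤ}
    (hA : A.det ≠ 0) : (scl c A).det ≠ 0 := by
  have h1 : scl c A = c • A.map (Int.cast : ℤ → ℝ) := by
    ext i j
    simp [scl]
  rw [h1, Matrix.det_smul, Fintype.card_fin]
  have h2 : (A.map (Int.cast : ℤ → ℝ)).det = (A.det : ℝ) := by
    have := (Int.castRingHom ℝ).map_det A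
    simpa using this.symm
  rw [h2]
  exact mul_ne_zero (pow_ne_zero _ hc.ne') (by exact_mod_cast hA)

private theorem PG_e1_sub (x y : ℝ) : ‖e1 x - e1 y‖ ≤ 2 * Real.pi * |x - y| := by
  have h1 : e1 x - e1 y = e1 y * (e1 (x - y) - 1) := by
    rw [mul_sub, mul_one, ← e1_add, add_sub_cancel]
  rw [h1, norm_mul, norm_e1, one_mul]
  have h2 : e1 (x - y) = Complex.exp (Complex.I * ((2 * Real.pi * (x - y) : ℝ) : ℂ)) := by
    unfold e1
    congr 1
    push_cast
    ring
  rw [h2]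
  refine (Real.norm_exp_I_mul_ofReal_sub_one_le).trans ?_
  rw [Real.norm_eq_abs, abs_mul, abs_of_pos (by positivity : (0 : ℝ) < 2 * Real.pi)]

/-- the Fejer means -/
private noncomputable def PG_F {n : ℕ} (ρ : ℝ) (H : Matrix (Fin n) (Fin n) ℝ) (b θ s : Fin n → ℝ)
    (R : ℕ) (u : Fin n → ℝ) : ℂ :=
  (((∏ i, tp ρ (u i) ^ 2) * ∏ i, K1 R (b i + ∑ j, H i j * u j + θ i) : ℝ) : ℂ) *
    e1 (∑ i, s i * u i)

private theorem PG_F_cont {n : ℕ} (ρ : ℝ) (H : Matrix (Fin n) (Fin n) ℝ) (b θ s : Fin n → ℝ)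
    (R : ℕ) : Continuous (PG_F ρ H b θ s R) := by
  unfold PG_F
  refine Continuous.mul ?_ (continuous_e1.comp (by fun_prop))
  refine Complex.continuous_ofReal.comp (Continuous.mul ?_ ?_)
  · exact continuous_finsetProd _ fun i _ => ((PG_continuous_tp ρ).comp (continuous_apply i)).pow 2
  · exact continuous_finsetProd _ fun i _ => (continuous_K1 R).comp (by fun_prop)

private theorem PG_est {n : ℕ} (ρ : ℝ) {H : Matrix (Fin n) (Fin n) ℝ} (hdet : H.det ≠ 0)
    (hrow : ∀ i, ∑ j, |H i j| ≤ 1 / 4) (b θ s : Fin n → ℝ) (z : ℂ) (hz : ‖z‖ ≤ 1)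
    (S : Set (Fin n → ℝ)) (hS : MeasurableSet S) (hSc : S ⊆ cube n) {κ : ℝ} (hκ : 0 ≤ κ)
    (hnear : ∀ u ∈ cube n, u ∉ S → ‖e1 (∑ i, s i * u i) - z‖ ≤ κ)
    {η : ℝ} (hη : 0 < η)
    (hsep : ∀ u ∈ S, ∃ i, ∀ y : ℤ, η ≤ |((b i + θ i) + ∑ j, H i j * u j) - y|)
    {R : ℕ} (hR : 0 < R) :
    ‖(∫ u in cube n, PG_F ρ H b θ s R u) - z * ∫ u in cube n, PG_F ρ H b θ 0 R u‖ ≤
      κ * (1 / |H.det|) + 2 * (n * (1 / |H.det| * (1 / (4 * R * η ^ 2)))) := by
  have hi : ∀ s' : Fin n → ℝ, IntegrableOn (PG_F ρ H b θ s' R) (cube n) := fun s' =>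
    (PG_F_cont ρ H b θ s' R).continuousOn.integrableOn_compact (PG_isCompact_cube n)
  set Kr : (Fin n → ℝ) → ℝ := fun u => ∏ i, K1 R ((b i + θ i) + ∑ j, H i j * u j) with hKr
  have hKc : Continuous Kr := PG_cont R H fun i => b i + θ i
  have hK0 : ∀ u, 0 ≤ Kr u := fun u => Finset.prod_nonneg fun i _ => K1_nonneg R _
  have hKi : IntegrableOn Kr (cube n) :=
    hKc.continuousOn.integrableOn_compact (PG_isCompact_cube n)
  rw [← integral_const_mul, ← integral_sub (hi s) ((hi 0).const_mul z)]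
  refine (norm_integral_le_integral_norm _).trans ?_
  have hpt : ∀ u ∈ cube n, ‖PG_F ρ H b θ s R u - z * PG_F ρ H b θ 0 R u‖ ≤
      κ * Kr u + 2 * S.indicator Kr u := by
    intro u hu
    have h1 : PG_F ρ H b θ s R u - z * PG_F ρ H b θ 0 R u =
        (((∏ i, tp ρ (u i) ^ 2) * ∏ i, K1 R (b i + ∑ j, H i j * u j + θ i) : ℝ) : ℂ) *
          (e1 (∑ i, s i * u i) - z) := by
      unfold PG_F
      have h2 : e1 (∑ i, (0 : Fin n → ℝ) i * u i) = 1 := by simp [e1_zero]
      rw [h2]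
      ring
    have h3 : ∏ i, K1 R (b i + ∑ j, H i j * u j + θ i) = Kr u := by
      refine Finset.prod_congr rfl fun i _ => ?_
      congr 1
      ring
    have hW0 : 0 ≤ ∏ i, tp ρ (u i) ^ 2 := Finset.prod_nonneg fun i _ => sq_nonneg _
    have hW1 : ∏ i, tp ρ (u i) ^ 2 ≤ 1 :=
      Finset.prod_le_one (fun i _ => sq_nonneg _) fun i _ => pow_le_one₀ (PG_tp ρ _).1 (PG_tp ρ _).2
    rw [h1, h3, norm_mul, Complex.norm_real, Real.norm_of_nonneg (mul_nonneg hW0 (hK0 u))]
    have h4 : (∏ i, tp ρ (u i) ^ 2) * Kr u ≤ Kr u := mul_le_of_le_one_left (hK0 u) hW1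
    refine (mul_le_mul_of_nonneg_right h4 (norm_nonneg _)).trans ?_
    by_cases huS : u ∈ S
    · rw [Set.indicator_of_mem huS]
      have h5 : ‖e1 (∑ i, s i * u i) - z‖ ≤ 2 := by
        refine (norm_sub_le _ _).trans ?_
        rw [norm_e1]
        linarith
      have h6 := mul_le_mul_of_nonneg_left h5 (hK0 u)
      have h7 := mul_nonneg hκ (hK0 u)
      linarith
    · rw [Set.indicator_of_notMem huS]
      have h6 := mul_le_mul_of_nonneg_left (hnear u hu huS) (hK0 u)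
      linarith
  have hind : IntegrableOn (S.indicator Kr) (cube n) := hKi.indicator hS
  refine (setIntegral_mono_on (((hi s).sub ((hi 0).const_mul z)).norm)
    ((hKi.const_mul κ).add (hind.const_mul 2)) (PG_measurableSet_cube n) hpt).trans ?_
  rw [integral_add' (hKi.const_mul κ) (hind.const_mul 2), integral_const_mul, integral_const_mul,
    setIntegral_indicator hS, Set.inter_eq_right.mpr hSc]
  have hm := mass_bound (H := H) (fun i => b i + θ i) hdet hrow hR
  have hf := far_bound (w := fun i => b i + θ i) hdet hrow hη S hS hSc hsep hR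
  have h8 := mul_le_mul_of_nonneg_left hm hκ
  linarith

private theorem PG_lim {n : ℕ} {ρ : ℝ} (hρ : 0 < ρ) (hρ2 : ρ ≤ 1 / 2) {c : ℝ} (hc : 0 < c)
    (A : Matrix (Fin n) (Fin n) ℤ) (hA : A.det ≠ 0) (hs : A.IsSymm)
    (hrow : ∀ i, ∑ j, |scl c A i j| ≤ 1 / 4) (b θ s : Fin n → ℝ) (z : ℂ) (hz : ‖z‖ ≤ 1)
    (S : Set (Fin n → ℝ)) (hS : MeasurableSet S) (hSc : S ⊆ cube n) {κ : ℝ} (hκ : 0 ≤ κ)
    (hnear : ∀ u ∈ cube n, u ∉ S → ‖e1 (∑ i, s i * u i) - z‖ ≤ κ)
    {η : ℝ} (hη : 0 < η)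
    (hsep : ∀ u ∈ S, ∃ i, ∀ y : ℤ, η ≤ |((b i + θ i) + ∑ j, scl c A i j * u j) - y|) :
    ‖GX ρ (scl c A) b s θ - z * GX ρ (scl c A) b 0 θ‖ ≤ κ * (1 / |(scl c A).det|) := by
  have hdet := PG_det hc hA
  have t1 := tendsto_fejer_X hρ hρ2 hc A hA hs b θ s
  have t0 := tendsto_fejer_X hρ hρ2 hc A hA hs b θ 0
  have t2 := (t1.sub (t0.const_mul z)).norm
  have t3 : Tendsto (fun R : ℕ => κ * (1 / |(scl c A).det|) +
      2 * (n * (1 / |(scl c A).det| * (1 / (4 * (R : ℝ) * η ^ 2))))) atTop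
      (𝓝 (κ * (1 / |(scl c A).det|) + 2 * (n * (1 / |(scl c A).det| * 0)))) := by
    have h1 : Tendsto (fun R : ℕ => 1 / (4 * (R : ℝ) * η ^ 2)) atTop (𝓝 0) := by
      have h2 : Tendsto (fun R : ℕ => (1 / (4 * η ^ 2)) * ((R : ℝ))⁻¹) atTop
          (𝓝 ((1 / (4 * η ^ 2)) * 0)) :=
        tendsto_inv_atTop_nhds_zero_nat.const_mul _
      rw [mul_zero] at h2
      refine h2.congr fun R => ?_
      rw [one_div, one_div, ← mul_inv]
      congr 1
      ring
    exact tendsto_const_nhds.add (((h1.const_mul _).const_mul _).const_mul _)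
  rw [mul_zero, mul_zero, mul_zero, add_zero] at t3
  refine le_of_tendsto_of_tendsto t2 t3 ?_
  filter_upwards [eventually_gt_atTop 0] with R hR
  exact PG_est ρ hdet hrow b θ s z hz S hS hSc hκ hnear hη hsep hR

theorem GX_point {n : ℕ} {ρ : ℝ} (hρ : 0 < ρ) (hρ2 : ρ ≤ 1 / 2) {c : ℝ} (hc : 0 < c)
    (A : Matrix (Fin n) (Fin n) ℤ) (hA : A.det ≠ 0) (hs : A.IsSymm)
    (hrow : ∀ i, ∑ j, |scl c A i j| ≤ 1 / 4) (b θ : Fin n → ℝ) :
    ∃ u ∈ cube n, ∀ s : Fin n → ℝ,
      GX ρ (scl c A) b s θ = e1 (∑ i, s i * u i) * GX ρ (scl c A) b 0 θ := by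
  have hdet := PG_det hc hA
  by_cases hex : ∃ u ∈ cube n, ∀ i, ∃ y : ℤ, (b i + θ i) + ∑ j, scl c A i j * u j = y
  · obtain ⟨v, hv, hvz⟩ := hex
    refine ⟨v, hv, fun s => ?_⟩
    rw [← sub_eq_zero, ← norm_le_zero_iff]
    set D : ℝ := 2 * Real.pi * ∑ i, |s i| with hD
    have hD0 : 0 ≤ D := by positivity
    have hbound : ∀ γ : ℝ, 0 < γ → ‖GX ρ (scl c A) b s θ -
        e1 (∑ i, s i * v i) * GX ρ (scl c A) b 0 θ‖ ≤ (D * γ) * (1 / |(scl c A).det|) := by
      intro γ hγ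
      set S : Set (Fin n → ℝ) := cube n ∩ {u | ∃ i, γ ≤ |u i - v i|} with hSdef
      have hclosed : IsClosed {u : Fin n → ℝ | ∃ i, γ ≤ |u i - v i|} := by
        have : {u : Fin n → ℝ | ∃ i, γ ≤ |u i - v i|} = ⋃ i, {u : Fin n → ℝ | γ ≤ |u i - v i|} := by
          ext u
          simp
        rw [this]
        refine isClosed_iUnion_of_finite fun i => ?_
        exact isClosed_le continuous_const (((continuous_apply i).sub continuous_const).abs)
      have hScomp : IsCompact S := (PG_isCompact_cube n).inter_right hclosed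
      have hSno : ∀ u ∈ S, ∃ i, ∀ y : ℤ, (b i + θ i) + ∑ j, scl c A i j * u j ≠ y := by
        intro u hu
        by_contra hcon
        push Not at hcon
        obtain ⟨i, hi⟩ := hu.2
        have huv := lattice_unique hdet hrow (fun i => b i + θ i) hu.1 hv hcon hvz
        rw [huv, sub_self, abs_zero] at hi
        linarith
      obtain ⟨η, hη, hsep⟩ := exists_sep (scl c A) (fun i => b i + θ i) S hScomp hSno
      refine PG_lim hρ hρ2 hc A hA hs hrow b θ s _ (le_of_eq (norm_e1 _)) S hScomp.measurableSet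
        Set.inter_subset_left (by positivity) (fun u hu huS => ?_) hη hsep
      have hclose : ∀ i, |u i - v i| ≤ γ := by
        intro i
        by_contra hcon
        exact huS ⟨hu, i, (not_le.mp hcon).le⟩
      refine (PG_e1_sub _ _).trans ?_
      have h1 : |∑ i, s i * u i - ∑ i, s i * v i| ≤ (∑ i, |s i|) * γ := by
        rw [← Finset.sum_sub_distrib, Finset.sum_mul]
        refine (Finset.abs_sum_le_sum_abs _ _).trans (Finset.sum_le_sum fun i _ => ?_)
        rw [← mul_sub, abs_mul]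
        exact mul_le_mul_of_nonneg_left (hclose i) (abs_nonneg _)
      rw [hD, mul_assoc (2 * Real.pi)]
      exact mul_le_mul_of_nonneg_left h1 (by positivity)
    have hlim : Tendsto (fun γ : ℝ => (D * γ) * (1 / |(scl c A).det|)) (𝓝[>] 0)
        (𝓝 ((D * 0) * (1 / |(scl c A).det|))) := by
      refine Tendsto.mono_left ?_ nhdsWithin_le_nhds
      exact (((continuous_const.mul continuous_id).mul continuous_const).tendsto 0)
    rw [mul_zero, zero_mul] at hlim
    refine ge_of_tendsto hlim ?_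
    filter_upwards [self_mem_nhdsWithin] with γ hγ
    exact hbound γ hγ
  · push Not at hex
    obtain ⟨η, hη, hsep⟩ := exists_sep (scl c A) (fun i => b i + θ i) (cube n)
      (PG_isCompact_cube n) hex
    have hzero : ∀ s : Fin n → ℝ, GX ρ (scl c A) b s θ = 0 := by
      intro s
      have h1 := PG_lim hρ hρ2 hc A hA hs hrow b θ s 0 (by simp) (cube n)
        (PG_measurableSet_cube n) subset_rfl le_rfl (fun u hu hu' => absurd hu hu') hη hsep
      rw [zero_mul, sub_zero, zero_mul] at h1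
      exact norm_le_zero_iff.mp h1
    refine ⟨0, ?_, fun s => ?_⟩
    · intro i _
      simp
    · rw [hzero, hzero, mul_zero]

end Vale.Agent.P110U
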