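import Vale.Agent.Lib.P110T.Pur.D
import Vale.Agent.Lib.P110T.Pur.G

/-! P110T local purity in shift form: module H, the final statement. -/

namespace Vale.Agent.P110U

open MeasureTheory Filter Topology
open scoped ComplexConjugate ENNReal
open Vale.Agent.P110F

private theorem purH_key {a t E G0 G1 : ℂ} {Λ e : ℝ} (hΛ : 0 < Λ) (hE : ‖E‖ = 1)
    (h1 : ‖a * conj t / (Λ : ℂ) - E * G0‖ ≤ e) (h2 : ‖t * conj t / (Λ : ℂ) - G0‖ ≤ e)
    (h3 : ‖a * conj a / (Λ : ℂ) - G1‖ ≤ e) (h4 : ‖G1 - G0‖ ≤ e) :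
    ‖a - E * t‖ ^ 2 ≤ 5 * e * Λ := by
  have hΛ' : (Λ : ℂ) ≠ 0 := by exact_mod_cast hΛ.ne'
  have hEE : E * conj E = 1 := by
    rw [Complex.mul_conj, Complex.normSq_eq_norm_sq, hE]
    simp
  set X : ℂ := conj E * (a * conj t / (Λ : ℂ) - E * G0) with hX
  have hXn : ‖X‖ ≤ e := by
    rw [hX, norm_mul, Complex.norm_conj, hE, one_mul]
    exact h1
  -- real parts
  have e2 : ((‖a - E * t‖ ^ 2 : ℝ) : ℂ) = (a - E * t) * conj (a - E * t) := by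
    rw [Complex.mul_conj, Complex.normSq_eq_norm_sq]
  have e3 : (((‖a - E * t‖ ^ 2 / Λ : ℝ)) : ℂ) =
      (a * conj a / (Λ : ℂ) - G1) + (G1 - G0) + (t * conj t / (Λ : ℂ) - G0) - X - conj X +
        (G0 - conj G0) := by
    rw [Complex.ofReal_div, e2, hX]
    simp only [map_sub, map_mul, map_div₀, Complex.conj_conj, Complex.conj_ofReal]
    field_simp
    linear_combination (t * conj t - Λ * G0 - Λ * conj G0) * hEE
  have e4 : ‖a - E * t‖ ^ 2 / Λ = ((a * conj a / (Λ : ℂ) - G1) + (G1 - G0) +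
      (t * conj t / (Λ : ℂ) - G0) - X - conj X + (G0 - conj G0)).re := by
    rw [← e3, Complex.ofReal_re]
  have e5 : ‖a - E * t‖ ^ 2 / Λ ≤ 5 * e := by
    rw [e4]
    simp only [Complex.add_re, Complex.sub_re, Complex.conj_re]
    have g1 := (Complex.abs_re_le_norm (a * conj a / (Λ : ℂ) - G1)).trans h3
    have g2 := (Complex.abs_re_le_norm (G1 - G0)).trans h4
    have g3 := (Complex.abs_re_le_norm (t * conj t / (Λ : ℂ) - G0)).trans h2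
    have g4 := (Complex.abs_re_le_norm X).trans hXn
    rw [Complex.sub_re] at g1 g2 g3
    have k1 := (abs_le.1 g1).2
    have k2 := (abs_le.1 g2).2
    have k3 := (abs_le.1 g3).2
    have k4 := (abs_le.1 g4).1
    linarith
  rwa [div_le_iff₀ hΛ] at e5

/-- **Local purity of the tapered sums.** -/
theorem shift_TT {n : ℕ} {ρ : ℝ} (hρ : 0 < ρ) (hρ2 : ρ ≤ 1 / 2) {c : ℝ} (hc : 0 < c)
    (A : Matrix (Fin n) (Fin n) ℤ) (hA : A.det ≠ 0) (hs : A.IsSymm)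
    (hrow : ∀ i, ∑ j, |scl c A i j| ≤ 1 / 4) (b : Fin n → ℝ) {K δ : ℝ} (hK : 0 ≤ K)
    (hδ : 0 < δ) :
    ∀ᶠ L : ℕ in atTop, ∀ θ : Fin n → ℝ, ∃ u ∈ cube n, ∀ s : Fin n → ℝ, (∀ i, |s i| ≤ K) →
      ‖TT ρ (scl c A) b L (fun i => θ i + s i / L) -
        e1 (∑ i, s i * u i) * TT ρ (scl c A) b L θ‖ ^ 2 ≤ δ * (L : ℝ) ^ n := by
  have hδ5 : 0 < δ / 5 := by positivity
  filter_upwards [uniform_X hρ hρ2 hc A hA hs hrow b hK hδ5, GX_unif hρ hρ2 hc A hA b hK hδ5,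
    eventually_gt_atTop 0] with L h1 h2 hL θ
  have hΛ : (0 : ℝ) < (L : ℝ) ^ n := pow_pos (by exact_mod_cast hL) n
  obtain ⟨u, hu, hG⟩ := GX_point hρ hρ2 hc A hA hs hrow b θ
  refine ⟨u, hu, fun s hsK => ?_⟩
  have h0K : ∀ i : Fin n, |(0 : Fin n → ℝ) i| ≤ K := fun i => by simpa using hK
  have z : ∀ θ' : Fin n → ℝ, (fun i => θ' i + (0 : Fin n → ℝ) i / (L : ℝ)) = θ' := by
    intro θ'
    funext i
    simp
  have a1 := h1 θ s hsK
  have a2 := h1 θ 0 h0K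
  have a3 := h1 (fun i => θ i + s i / L) 0 h0K
  rw [z] at a2 a3
  rw [hG s] at a1
  have a4 := h2 θ s hsK
  have hcast : ((L : ℂ) ^ n) = (((L : ℝ) ^ n : ℝ) : ℂ) := by push_cast; rfl
  rw [hcast] at a1 a2 a3
  have := purH_key hΛ (norm_e1 (∑ i, s i * u i)) a1 a2 a3 a4
  calc _ ≤ 5 * (δ / 5) * (L : ℝ) ^ n := this
    _ = δ * (L : ℝ) ^ n := by ring

end Vale.Agent.P110U
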